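import Vale.Agent.P165.Walks

/-!
A discrete Cheeger inequality and the resulting decay of the return counts (P165).
-/

namespace Vale.Agent.P165

noncomputable section

open Finset SimpleGraph

set_option linter.unusedSectionVars false

variable {V : Type*} [DecidableEq V] (G : SimpleGraph V) [G.LocallyFinite]

/-- the number of edges leaving a finite set -/
def edgeBdry (A : Finset V) : ℕ := ∑ x ∈ A, (G.neighborFinset x \ A).card

/-- the quadratic form of the adjacency operator on a finite set -/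
def qf (T : Finset V) (a b : V → ℝ) : ℝ := ∑ x ∈ T, ∑ y ∈ G.neighborFinset x, a x * b y

/-- the coarea inequality -/
theorem coarea {h : ℝ} (hb : ∀ A : Finset V, A.Nonempty → h * A.card ≤ edgeBdry G A)
    (T : Finset V) : ∀ (k : ℕ) (g : V → ℝ), (T.filter fun x => 0 < g x).card ≤ k →
      (∀ x, 0 ≤ g x) → (∀ x, x ∉ T → g x = 0) →
      h * ∑ x ∈ T, g x ≤ ∑ x ∈ T, ∑ y ∈ G.neighborFinset x, max (g x - g y) 0 := by
  intro k
  induction k with
  | zero =>
    intro g hk h0 _
    have hz : ∀ x ∈ T, g x = 0 := fun x hx => le_antisymm (not_lt.1 fun hlt =>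
      absurd hk (Nat.not_le.2 (Finset.card_pos.2 ⟨x, Finset.mem_filter.2 ⟨hx, hlt⟩⟩))) (h0 x)
    rw [Finset.sum_eq_zero hz, mul_zero]
    exact Finset.sum_nonneg fun x _ => Finset.sum_nonneg fun y _ => le_max_right _ _
  | succ k ih =>
    intro g hk h0 hT
    set A := T.filter fun x => 0 < g x with hA
    by_cases hne : A.Nonempty
    · obtain ⟨x₀, hx₀, hmin⟩ := A.exists_min_image g hne
      have hmem : ∀ x, x ∈ A ↔ 0 < g x := fun x => by
        rw [hA, Finset.mem_filter]
        exact ⟨fun h => h.2, fun h => ⟨by_contra fun hx => h.ne' (hT x hx), h⟩⟩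
      set m := g x₀ with hm
      have hmpos : 0 < m := (hmem x₀).1 hx₀
      set g' : V → ℝ := fun x => if x ∈ A then g x - m else g x with hg'
      have hz : ∀ x, x ∉ A → g x = 0 := fun x hx =>
        le_antisymm (not_lt.1 fun h => hx ((hmem x).2 h)) (h0 x)
      have h0' : ∀ x, 0 ≤ g' x := fun x => by
        simp only [hg']
        split_ifs with hx
        · linarith [hmin x hx]
        · exact h0 x
      have hlt : (T.filter fun x => 0 < g' x).card ≤ k := by
        have : (T.filter fun x => 0 < g' x) ⊆ A.erase x₀ := fun x hx => by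
          obtain ⟨-, hx2⟩ := Finset.mem_filter.1 hx
          simp only [hg'] at hx2
          split_ifs at hx2 with hxA
          · exact Finset.mem_erase.2 ⟨fun e => by subst e; linarith, hxA⟩
          · linarith [hz x hxA]
        have := Finset.card_le_card this
        rw [Finset.card_erase_of_mem hx₀] at this
        have := Finset.card_pos.2 hne
        omega
      have hT' : ∀ x, x ∉ T → g' x = 0 := fun x hx => by
        have : x ∉ A := fun h => hx (Finset.mem_filter.1 h).1
        simp only [hg', if_neg this]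
        exact hT x hx
      have hrec := ih g' hlt h0' hT'
      have hpair : ∀ x y, max (g x - g y) 0 =
          max (g' x - g' y) 0 + (if x ∈ A ∧ y ∉ A then m else 0) := by
        intro x y
        by_cases hx : x ∈ A <;> by_cases hy : y ∈ A
        · simp [hg', hx, hy]
        · have := hmin x hx
          simp only [hg', if_pos hx, if_neg hy, if_pos (And.intro hx hy), hz y hy, sub_zero]
          rw [max_eq_left (by linarith), max_eq_left (by linarith)]
          ring
        · have := hmin y hy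
          simp only [hg', if_neg hx, if_pos hy, hz x hx]
          rw [if_neg (fun h : x ∈ A ∧ y ∉ A => hx h.1), add_zero,
            max_eq_right (by linarith), max_eq_right (by linarith)]
        · simp [hg', hx, hy]
      have hsum : ∑ x ∈ T, ∑ y ∈ G.neighborFinset x, (if x ∈ A ∧ y ∉ A then m else 0) =
          m * edgeBdry G A := by
        rw [edgeBdry, Nat.cast_sum, Finset.mul_sum]
        rw [← Finset.sum_subset (show A ⊆ T from Finset.filter_subset _ _) fun x _ hx =>
          Finset.sum_eq_zero fun y _ => if_neg fun h => hx h.1]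
        refine Finset.sum_congr rfl fun x hx => ?_
        simp only [hx, true_and]
        rw [← Finset.sum_filter, Finset.sum_const, nsmul_eq_mul, mul_comm,
          Finset.sdiff_eq_filter]
      have hsumg : ∑ x ∈ T, g x = ∑ x ∈ T, g' x + m * A.card := by
        have e : ∀ x, g x = g' x + (if x ∈ A then m else 0) := fun x => by
          simp only [hg']
          split_ifs <;> ring
        rw [Finset.sum_congr rfl fun x _ => e x, Finset.sum_add_distrib, ← Finset.sum_filter,
          show T.filter (· ∈ A) = A from ?_, Finset.sum_const, nsmul_eq_mul, mul_comm m]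
        rw [Finset.filter_mem_eq_inter, Finset.inter_eq_right]
        exact Finset.filter_subset _ _
      simp only [hpair, Finset.sum_add_distrib, hsum]
      rw [hsumg]
      nlinarith [mul_le_mul_of_nonneg_left (hb A hne) hmpos.le]
    · rw [Finset.not_nonempty_iff_eq_empty] at hne
      exact ih g (by simp [← hA, hne]) h0 hT

variable {D : ℕ} (hD : ∀ v, G.degree v = D)

/-- a finite set containing `T` and its neighbours -/
def thick (T : Finset V) : Finset V := T ∪ T.biUnion fun x => G.neighborFinset x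

theorem subset_thick (T : Finset V) : T ⊆ thick G T := Finset.subset_union_left

theorem nb_subset_thick {T : Finset V} {x : V} (hx : x ∈ T) :
    G.neighborFinset x ⊆ thick G T :=
  fun _ hy => Finset.mem_union_right _ (Finset.mem_biUnion.2 ⟨x, hx, hy⟩)

theorem qf_subset {T T' : Finset V} (h : T ⊆ T') {a b : V → ℝ} (ha : ∀ x, x ∉ T → a x = 0) :
    qf G T' a b = qf G T a b :=
  (Finset.sum_subset h fun x _ hx => Finset.sum_eq_zero fun y _ => by rw [ha x hx, zero_mul]).symm

theorem qf_symm {T : Finset V} {a b : V → ℝ} (ha : ∀ x, x ∉ T → a x = 0)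
    (hb : ∀ x, x ∉ T → b x = 0) : qf G T a b = qf G T b a := by
  have e : ∀ a b : V → ℝ, (∀ x, x ∉ T → b x = 0) →
      qf G T a b = ∑ x ∈ T, ∑ y ∈ G.neighborFinset x ∩ T, a x * b y := fun a b hb =>
    Finset.sum_congr rfl fun x _ => (Finset.sum_subset Finset.inter_subset_left
      fun y hy hy' => by
        rw [hb y fun h => hy' (Finset.mem_inter.2 ⟨hy, h⟩), mul_zero]).symm
  rw [e a b hb, e b a ha, Finset.sum_comm' (t' := T) (s' := fun y => G.neighborFinset y ∩ T)]
  · exact Finset.sum_congr rfl fun x _ => Finset.sum_congr rfl fun y _ => mul_comm _ _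
  · intro x y
    simp only [Finset.mem_inter, mem_neighborFinset, G.adj_comm x y]
    tauto

include hD in
/-- Cheeger: nonnegative functions -/
theorem qf_le_nonneg {h r : ℝ} (h0 : 0 ≤ h) (hr : 0 ≤ r) (hhr : (D : ℝ) ^ 2 - h ^ 2 ≤ r ^ 2)
    (hb : ∀ A : Finset V, A.Nonempty → h * A.card ≤ edgeBdry G A) (T : Finset V) (f : V → ℝ)
    (hf : ∀ x, 0 ≤ f x) (hT : ∀ x, x ∉ T → f x = 0) :
    qf G T f f ≤ r * ∑ x ∈ T, f x ^ 2 := by
  classical
  set F := ∑ x ∈ T, f x ^ 2 with hF
  set Q := qf G T f f with hQ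
  set T' := thick G T with hT'
  have hFnn : 0 ≤ F := Finset.sum_nonneg fun x _ => sq_nonneg _
  have hQnn : 0 ≤ Q := Finset.sum_nonneg fun x _ => Finset.sum_nonneg fun y _ =>
    mul_nonneg (hf x) (hf y)
  set P : Finset (V × V) := (T' ×ˢ T').filter fun z => G.Adj z.1 z.2 with hP
  have hPsum : ∀ a : V → V → ℝ, (∀ x y, x ∉ T → a x y = 0) →
      ∑ z ∈ P, a z.1 z.2 = ∑ x ∈ T, ∑ y ∈ G.neighborFinset x, a x y := by
    intro a ha
    rw [hP, Finset.sum_filter, Finset.sum_product,
      ← Finset.sum_subset (subset_thick G T) fun x _ hx =>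
        Finset.sum_eq_zero fun y _ => by rw [ha x y hx]; simp]
    refine Finset.sum_congr rfl fun x hx => ?_
    rw [← Finset.sum_filter]
    refine Finset.sum_congr ?_ fun y _ => rfl
    ext y
    simp only [Finset.mem_filter, mem_neighborFinset]
    exact ⟨fun h => h.2, fun h => ⟨nb_subset_thick G hx ((G.mem_neighborFinset x y).2 h), h⟩⟩
  have hswap : ∀ a : V → V → ℝ, ∑ z ∈ P, a z.2 z.1 = ∑ z ∈ P, a z.1 z.2 := fun a =>
    Finset.sum_nbij' Prod.swap Prod.swap
      (fun z hz => by simp only [hP, Finset.mem_filter, Finset.mem_product] at hz ⊢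
                      exact ⟨⟨hz.1.2, hz.1.1⟩, hz.2.symm⟩)
      (fun z hz => by simp only [hP, Finset.mem_filter, Finset.mem_product] at hz ⊢
                      exact ⟨⟨hz.1.2, hz.1.1⟩, hz.2.symm⟩)
      (fun _ _ => rfl) (fun _ _ => rfl) (fun _ _ => rfl)
  have hxx : ∑ z ∈ P, f z.1 ^ 2 = D * F := by
    rw [hPsum (fun x _ => f x ^ 2) fun x _ hx => by rw [hT x hx]; simp, hF, Finset.mul_sum]
    exact Finset.sum_congr rfl fun x _ => by
      rw [Finset.sum_const, nsmul_eq_mul, G.card_neighborFinset_eq_degree, hD]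
  have hyy : ∑ z ∈ P, f z.2 ^ 2 = D * F := (hswap fun x _ => f x ^ 2).trans hxx
  have hxy : ∑ z ∈ P, f z.1 * f z.2 = Q :=
    hPsum (fun x y => f x * f y) fun x y hx => by rw [hT x hx, zero_mul]
  have hco : h * F ≤ ∑ z ∈ P, max (f z.1 ^ 2 - f z.2 ^ 2) 0 := by
    rw [hPsum (fun x y => max (f x ^ 2 - f y ^ 2) 0) fun x y hx => by
      rw [hT x hx]; exact max_eq_right (by nlinarith [sq_nonneg (f y)])]
    exact coarea G hb T _ (fun x => f x ^ 2) le_rfl (fun x => sq_nonneg _)
      fun x hx => by rw [hT x hx]; simp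
  have habs : 2 * (h * F) ≤ ∑ z ∈ P, |f z.1 - f z.2| * (f z.1 + f z.2) := by
    have e : ∀ z : V × V, |f z.1 - f z.2| * (f z.1 + f z.2) =
        max (f z.1 ^ 2 - f z.2 ^ 2) 0 + max (f z.2 ^ 2 - f z.1 ^ 2) 0 := fun z => by
      have h1 := hf z.1
      have h2 := hf z.2
      rcases le_total (f z.2) (f z.1) with hle | hle
      · rw [abs_of_nonneg (by linarith), max_eq_left (by nlinarith), max_eq_right (by nlinarith)]
        ring
      · rw [abs_of_nonpos (by linarith), max_eq_right (by nlinarith), max_eq_left (by nlinarith)]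
        ring
    rw [Finset.sum_congr rfl fun z _ => e z, Finset.sum_add_distrib,
      hswap fun x y => max (f x ^ 2 - f y ^ 2) 0]
    linarith
  have hcs := Finset.sum_mul_sq_le_sq_mul_sq P (fun z => |f z.1 - f z.2|) fun z => f z.1 + f z.2
  have hm : ∑ z ∈ P, |f z.1 - f z.2| ^ 2 = 2 * (D * F) - 2 * Q := by
    simp only [sq_abs, sub_sq, Finset.sum_add_distrib, Finset.sum_sub_distrib, mul_assoc,
      ← Finset.mul_sum, hxx, hyy, hxy]
    ring
  have hp : ∑ z ∈ P, (f z.1 + f z.2) ^ 2 = 2 * (D * F) + 2 * Q := by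
    simp only [add_sq, Finset.sum_add_distrib, mul_assoc, ← Finset.mul_sum, hxx, hyy, hxy]
    ring
  rw [hm, hp] at hcs
  have hsq : (2 * (h * F)) ^ 2 ≤ (2 * (D * F) - 2 * Q) * (2 * (D * F) + 2 * Q) :=
    (pow_le_pow_left₀ (by positivity) habs 2).trans hcs
  have : Q ^ 2 ≤ (r * F) ^ 2 := by nlinarith [mul_le_mul_of_nonneg_right hhr (sq_nonneg F)]
  exact (pow_le_pow_iff_left₀ hQnn (by positivity) two_ne_zero).1 this

include hD in
theorem abs_qf_le {h r : ℝ} (h0 : 0 ≤ h) (hr : 0 ≤ r) (hhr : (D : ℝ) ^ 2 - h ^ 2 ≤ r ^ 2)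
    (hb : ∀ A : Finset V, A.Nonempty → h * A.card ≤ edgeBdry G A) (T : Finset V) (u : V → ℝ)
    (hT : ∀ x, x ∉ T → u x = 0) :
    |qf G T u u| ≤ r * ∑ x ∈ T, u x ^ 2 := by
  refine le_trans ?_ ((qf_le_nonneg G hD h0 hr hhr hb T (fun x => |u x|) (fun x => abs_nonneg _)
    fun x hx => by rw [hT x hx, abs_zero]).trans (le_of_eq (by simp only [sq_abs])))
  refine (Finset.abs_sum_le_sum_abs _ _).trans (Finset.sum_le_sum fun x _ => ?_)
  exact (Finset.abs_sum_le_sum_abs _ _).trans (le_of_eq (Finset.sum_congr rfl fun y _ =>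
    abs_mul _ _))

include hD in
/-- the adjacency operator has norm at most `r` -/
theorem adj_norm_le {h r : ℝ} (h0 : 0 ≤ h) (hr : 0 < r) (hhr : (D : ℝ) ^ 2 - h ^ 2 ≤ r ^ 2)
    (hb : ∀ A : Finset V, A.Nonempty → h * A.card ≤ edgeBdry G A) (T : Finset V) (f : V → ℝ)
    (hT : ∀ x, x ∉ T → f x = 0) :
    ∑ x ∈ thick G T, (∑ y ∈ G.neighborFinset x, f y) ^ 2 ≤ r ^ 2 * ∑ x ∈ T, f x ^ 2 := by
  set U := thick G T with hU
  set g : V → ℝ := fun x => ∑ y ∈ G.neighborFinset x, f y with hg
  have hgU : ∀ x, x ∉ U → g x = 0 := fun x hx => Finset.sum_eq_zero fun y hy =>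
    by_contra fun hy' => hx (nb_subset_thick G (by_contra fun h => hy' (hT y h))
      ((G.mem_neighborFinset y x).2 ((G.mem_neighborFinset x y).1 hy).symm))
  have hfU : ∀ x, x ∉ U → f x = 0 := fun x hx => hT x fun h => hx (subset_thick G T h)
  have hgf : qf G U g f = ∑ x ∈ U, g x ^ 2 := Finset.sum_congr rfl fun x _ => by
    rw [← Finset.mul_sum, sq]
  have hfg : qf G U f g = qf G U g f := qf_symm G hfU hgU
  have hlin : ∀ t : ℝ, qf G U (fun x => g x + t * f x) (fun x => g x + t * f x) =
      qf G U g g + t * qf G U g f + t * qf G U f g + t ^ 2 * qf G U f f := fun t => by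
    simp only [qf, Finset.mul_sum, ← Finset.sum_add_distrib]
    exact Finset.sum_congr rfl fun x _ => Finset.sum_congr rfl fun y _ => by ring
  have hlin2 : ∀ t : ℝ, ∑ x ∈ U, (g x + t * f x) ^ 2 =
      ∑ x ∈ U, g x ^ 2 + 2 * t * ∑ x ∈ U, g x * f x + t ^ 2 * ∑ x ∈ U, f x ^ 2 := fun t => by
    simp only [Finset.mul_sum, ← Finset.sum_add_distrib]
    exact Finset.sum_congr rfl fun x _ => by ring
  have hp := abs_qf_le G hD h0 hr.le hhr hb U (fun x => g x + r * f x)
    fun x hx => by rw [hgU x hx, hfU x hx]; simp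
  have hm := abs_qf_le G hD h0 hr.le hhr hb U (fun x => g x + (-r) * f x)
    fun x hx => by rw [hgU x hx, hfU x hx]; simp
  rw [hlin, hlin2, abs_le] at hp hm
  have hF : ∑ x ∈ U, f x ^ 2 = ∑ x ∈ T, f x ^ 2 :=
    (Finset.sum_subset (subset_thick G T) fun x _ hx => by rw [hT x hx]; simp).symm
  rw [hfg, hgf, hF] at hp hm
  have : r * (4 * ∑ x ∈ U, g x ^ 2) ≤
      r * (2 * (∑ x ∈ U, g x ^ 2 + r ^ 2 * ∑ x ∈ T, f x ^ 2)) := by nlinarith [hp.2, hm.1]
  have := le_of_mul_le_mul_left this hr
  linarith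

/-- balls, built step by step -/
def ballF (v : V) : ℕ → Finset V
  | 0 => {v}
  | n + 1 => thick G (ballF v n)

theorem wk_eq_zero {v : V} : ∀ {n : ℕ} {y : V}, y ∉ ballF G v n → wk G n v y = 0
  | 0, y, h => by
    rw [wk_zero, if_neg]
    exact fun e => h (Finset.mem_singleton.2 e.symm)
  | n + 1, y, h => by
    rw [wk_succ_right]
    refine Finset.sum_eq_zero fun z hz => wk_eq_zero fun hz' => h ?_
    exact nb_subset_thick G hz' ((G.mem_neighborFinset z y).2
      ((G.mem_neighborFinset y z).1 hz).symm)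

include hD in
/-- exponential decay of the return counts -/
theorem wk_le_pow {h r : ℝ} (h0 : 0 ≤ h) (hr : 0 < r) (hhr : (D : ℝ) ^ 2 - h ^ 2 ≤ r ^ 2)
    (hb : ∀ A : Finset V, A.Nonempty → h * A.card ≤ edgeBdry G A) (n : ℕ) (v : V) :
    wk G n v v ≤ r ^ n := by
  have hsq : ∀ n, ∑ y ∈ ballF G v n, wk G n v y ^ 2 ≤ (r ^ n) ^ 2 := by
    intro n
    induction n with
    | zero => simp [ballF, wk_zero]
    | succ n ih =>
      have e : ∀ y, wk G (n + 1) v y = ∑ z ∈ G.neighborFinset y, wk G n v z :=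
        fun y => wk_succ_right G n v y
      simp only [e, ballF]
      refine (adj_norm_le G hD h0 hr hhr hb (ballF G v n) (fun z => wk G n v z)
        fun z hz => wk_eq_zero G hz).trans ?_
      rw [pow_succ r n, mul_pow, mul_comm ((r ^ n) ^ 2)]
      exact mul_le_mul_of_nonneg_left ih (sq_nonneg r)
  refine (pow_le_pow_iff_left₀ (wk_nonneg G n v v) (by positivity) two_ne_zero).1 ?_
  by_cases hv : v ∈ ballF G v n
  · exact le_trans (Finset.single_le_sum (f := fun y => wk G n v y ^ 2)
      (fun y _ => sq_nonneg _) hv) (hsq n)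
  · rw [wk_eq_zero G hv, zero_pow two_ne_zero]
    positivity

include hD in
theorem wk_le_deg (n : ℕ) (v : V) : wk G (n + 1) v v ≤ (D : ℝ) ^ n := by
  rw [wk_succ, Finset.sum_congr rfl fun x _ => wk_symm G n x v]
  exact sum_wk_le G (fun x => (hD x).le) n v _

/-- the threshold degree -/
theorem exists_degree {δ : ℝ} (hδ : 0 < δ) : ∃ D₀ : ℕ, ∃ lam : ℝ, 1 < lam ∧
    ∀ (W : Type*) [DecidableEq W] (H : SimpleGraph W) [H.LocallyFinite] (d : ℕ),
      D₀ ≤ d → (∀ v, H.degree v = d) →
      (∀ A : Finset W, A.Nonempty → δ * d * A.card ≤ edgeBdry H A) →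
      ∀ L v, eta H L (lam / d) v ≤ (lam - 1) / 6 := by
  set δ' := min δ 1 with hδ'
  have hd1 : δ' ≤ 1 := min_le_right _ _
  have hd0 : 0 < δ' := lt_min hδ one_pos
  set ρ := Real.sqrt (1 - δ' ^ 2 / 2) with hρ
  have hrad : 0 < 1 - δ' ^ 2 / 2 := by nlinarith
  have hρ0 : 0 < ρ := Real.sqrt_pos.2 hrad
  have hρsq : ρ ^ 2 = 1 - δ' ^ 2 / 2 := Real.sq_sqrt hrad.le
  have hρ1 : ρ < 1 := by nlinarith
  set lam := (1 + 1 / ρ) / 2 with hlam
  have hinv : ρ * (1 / ρ) = 1 := by field_simp
  have hlam1 : 1 < lam := by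
    have : 1 < 1 / ρ := by rw [lt_div_iff₀ hρ0]; linarith
    linarith
  have hs : lam * ρ < 1 := by nlinarith
  set s := lam * ρ with hsdef
  have hs0 : 0 ≤ s := by positivity
  have hsum : Summable fun n : ℕ => (n : ℝ) * s ^ n := by
    simpa using summable_pow_mul_geometric_of_norm_lt_one 1
      (show ‖s‖ < 1 by rwa [Real.norm_eq_abs, abs_of_nonneg hs0])
  set ε := (lam - 1) / 12 with hε
  have hε0 : 0 < ε := by linarith
  obtain ⟨M, hM⟩ := ((tendsto_sum_nat_add fun n : ℕ => (n : ℝ) * s ^ n).eventually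
    (gt_mem_nhds hε0)).exists
  set C := ∑ n ∈ Finset.range M, (n : ℝ) * lam ^ n with hC
  have hC0 : 0 ≤ C := Finset.sum_nonneg fun n _ => by
    have : 0 ≤ lam := by linarith
    positivity
  refine ⟨max 1 (Nat.ceil (C / ε)), lam, hlam1, fun W _ H _ d hd hdeg hbd L v => ?_⟩
  have hd1' : (1 : ℝ) ≤ d := by exact_mod_cast (le_max_left _ _).trans hd
  have hdC : C / ε ≤ d := (Nat.le_ceil _).trans (by exact_mod_cast (le_max_right _ _).trans hd)
  have hb' : ∀ A : Finset W, A.Nonempty → δ' * d * A.card ≤ edgeBdry H A := fun A hA =>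
    (mul_le_mul_of_nonneg_right (mul_le_mul_of_nonneg_right (min_le_left δ 1) (by linarith))
      (Nat.cast_nonneg _)).trans (hbd A hA)
  have hq : ∀ n : ℕ, (lam / d) ^ n * wk H n v v ≤ s ^ n := by
    intro n
    have := wk_le_pow H hdeg (h := δ' * d) (r := ρ * d) (by positivity) (by positivity)
      (by
        rw [mul_pow, mul_pow, hρsq]
        nlinarith [sq_nonneg ((d : ℝ) * δ')]) hb' n v
    refine (mul_le_mul_of_nonneg_left this (by positivity)).trans (le_of_eq ?_)
    rw [← mul_pow, hsdef]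
    congr 1
    field_simp
  have hq' : ∀ n : ℕ, (n : ℝ) * (lam / d) ^ n * wk H n v v ≤ (n : ℝ) * lam ^ n / d := by
    intro n
    rcases n with - | n
    · simp
    · refine (mul_le_mul_of_nonneg_left (wk_le_deg H hdeg n v) (by positivity)).trans (le_of_eq ?_)
      rw [div_pow, pow_succ (d : ℝ)]
      field_simp
  have hnn : ∀ n : ℕ, 0 ≤ (n : ℝ) * (lam / d) ^ n * wk H n v v := fun n =>
    mul_nonneg (by positivity) (wk_nonneg H n v v)
  calc eta H L (lam / d) v
      ≤ ∑ n ∈ Finset.range (M + (L + 1)), (n : ℝ) * (lam / d) ^ n * wk H n v v :=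
        Finset.sum_le_sum_of_subset_of_nonneg
          (Finset.range_subset_range.2 (by omega)) fun n _ _ => hnn n
    _ = ∑ n ∈ Finset.range M, (n : ℝ) * (lam / d) ^ n * wk H n v v +
        ∑ n ∈ Finset.range (L + 1),
          ((M + n : ℕ) : ℝ) * (lam / d) ^ (M + n) * wk H (M + n) v v :=
        Finset.sum_range_add _ _ _
    _ ≤ C / d + ε := by
        refine add_le_add ?_ ?_
        · rw [hC, Finset.sum_div]
          exact Finset.sum_le_sum fun n _ => hq' n
        · refine le_trans (Finset.sum_le_sum (g := fun n : ℕ => ((n + M : ℕ) : ℝ) * s ^ (n + M))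
            fun n _ => ?_) (le_trans (Summable.sum_le_tsum _ (fun n _ => by positivity)
            (hsum.comp_injective (add_left_injective M))) hM.le)
          rw [add_comm M n, mul_assoc]
          exact mul_le_mul_of_nonneg_left (hq _) (Nat.cast_nonneg _)
    _ ≤ ε + ε := by
        refine add_le_add ?_ le_rfl
        rw [div_le_iff₀ (by linarith)]
        rw [div_le_iff₀ hε0] at hdC
        linarith
    _ = _ := by rw [hε]; ring

end

end Vale.Agent.P165
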