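import Mathlib

/-!
Walk counts of a locally finite graph and the sums used for percolation bounds (P165).
-/

namespace Vale.Agent.P165

noncomputable section

open Finset

variable {V : Type*} [DecidableEq V] (G : SimpleGraph V) [G.LocallyFinite]

/-- the number of walks of length `n` from `u` to `v` -/
def wk : ℕ → V → V → ℝ
  | 0, u, v => if u = v then 1 else 0
  | n + 1, u, v => ∑ x ∈ G.neighborFinset u, wk n x v

theorem wk_zero (u v : V) : wk G 0 u v = if u = v then 1 else 0 := rfl

theorem wk_succ (n : ℕ) (u v : V) :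
    wk G (n + 1) u v = ∑ x ∈ G.neighborFinset u, wk G n x v := rfl

theorem wk_nonneg (n : ℕ) (u v : V) : 0 ≤ wk G n u v := by
  induction n generalizing u with
  | zero => rw [wk_zero]; split_ifs <;> norm_num
  | succ n ih => rw [wk_succ]; exact Finset.sum_nonneg fun x _ => ih x

theorem wk_succ_right (n : ℕ) (u v : V) :
    wk G (n + 1) u v = ∑ z ∈ G.neighborFinset v, wk G n u z := by
  induction n generalizing u with
  | zero =>
    simp only [wk_succ, wk_zero, Finset.sum_ite_eq, Finset.sum_ite_eq']
    exact if_congr (by simp [G.adj_comm]) rfl rfl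
  | succ n ih =>
    rw [wk_succ, Finset.sum_congr rfl fun x _ => ih x, Finset.sum_comm]
    rfl

theorem wk_symm (n : ℕ) (u v : V) : wk G n u v = wk G n v u := by
  induction n generalizing u v with
  | zero => rw [wk_zero, wk_zero]; simp [eq_comm]
  | succ n ih =>
    rw [wk_succ, wk_succ_right]
    exact Finset.sum_congr rfl fun x _ => ih x v

theorem wk_conv_le (T : Finset V) (n m : ℕ) (u v : V) :
    ∑ x ∈ T, wk G n u x * wk G m x v ≤ wk G (n + m) u v := by
  induction n generalizing u with
  | zero =>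
    simp only [wk_zero, ite_mul, one_mul, zero_mul, Finset.sum_ite_eq, zero_add]
    split_ifs
    · exact le_rfl
    · exact wk_nonneg G m u v
  | succ n ih =>
    rw [Nat.succ_add, wk_succ]
    calc ∑ x ∈ T, wk G (n + 1) u x * wk G m x v
        = ∑ z ∈ G.neighborFinset u, ∑ x ∈ T, wk G n z x * wk G m x v := by
          rw [Finset.sum_comm]
          exact Finset.sum_congr rfl fun x _ => by rw [wk_succ, Finset.sum_mul]
      _ ≤ _ := Finset.sum_le_sum fun z _ => ih z

theorem sum_wk_le {D : ℕ} (hD : ∀ v, G.degree v ≤ D) (n : ℕ) (u : V) (T : Finset V) :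
    ∑ y ∈ T, wk G n u y ≤ (D : ℝ) ^ n := by
  induction n generalizing u with
  | zero =>
    simp only [wk_zero, Finset.sum_ite_eq, pow_zero]
    split_ifs <;> norm_num
  | succ n ih =>
    simp only [wk_succ]
    rw [Finset.sum_comm]
    refine (Finset.sum_le_sum fun x _ => ih x).trans ?_
    rw [Finset.sum_const, nsmul_eq_mul, pow_succ', SimpleGraph.card_neighborFinset_eq_degree]
    exact mul_le_mul_of_nonneg_right (by exact_mod_cast hD u) (by positivity)

theorem card_finsetWalkLength (n : ℕ) (u v : V) :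
    ((G.finsetWalkLength n u v).card : ℝ) = wk G n u v := by
  induction n generalizing u with
  | zero =>
    rw [wk_zero]
    by_cases h : u = v
    · subst h
      rw [if_pos rfl]
      simp [SimpleGraph.finsetWalkLength]
    · simp [SimpleGraph.finsetWalkLength, h]
  | succ n ih =>
    rw [SimpleGraph.finsetWalkLength, Finset.card_biUnion]
    · rw [Nat.cast_sum, wk_succ, ← Finset.sum_coe_sort (G.neighborFinset u)]
      refine Fintype.sum_equiv (Equiv.subtypeEquivRight fun x => by simp) _ _ fun w => ?_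
      rw [Finset.card_map]
      exact ih _
    · intro a _ b _ hab
      simp only [Function.onFun, Finset.disjoint_left, Finset.mem_map]
      dsimp only [DFunLike.coe]
      rintro p ⟨q, _, rfl⟩ ⟨r, _, h⟩
      have := congrArg (fun q => q.darts.head?.map fun d => d.snd) h
      exact hab (Subtype.ext (Option.some.inj this.symm))

/-- truncated walk sums -/
def gw (L : ℕ) (p : ℝ) (u v : V) : ℝ := ∑ n ∈ range (L + 1), p ^ n * wk G n u v

/-- truncated weighted return sums -/
def eta (L : ℕ) (p : ℝ) (v : V) : ℝ := ∑ n ∈ range (L + 1), (n : ℝ) * p ^ n * wk G n v v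

open Classical in
/-- the paths of length at most `L` -/
def pths (L : ℕ) (u v : V) : Finset (G.Walk u v) :=
  (G.finsetWalkLengthLT (L + 1) u v).filter fun q => q.IsPath

theorem mem_pths {L : ℕ} {u v : V} {q : G.Walk u v} :
    q ∈ pths G L u v ↔ q.length ≤ L ∧ q.IsPath := by
  simp [pths, SimpleGraph.mem_finsetWalkLengthLT_iff]

theorem sum_pths_le {p : ℝ} (hp : 0 ≤ p) (L : ℕ) (u v : V) :
    ∑ q ∈ pths G L u v, p ^ q.length ≤ gw G L p u v := by
  refine (Finset.sum_le_sum_of_subset_of_nonneg (Finset.filter_subset _ _)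
    fun q _ _ => by positivity).trans ?_
  rw [gw, SimpleGraph.finsetWalkLengthLT]
  refine le_of_eq ((Finset.sum_disjiUnion _ _ _).trans (Finset.sum_congr rfl fun n _ => ?_))
  rw [Finset.sum_congr rfl fun q hq => by rw [SimpleGraph.mem_finsetWalkLength_iff.1 hq],
    Finset.sum_const, nsmul_eq_mul, card_finsetWalkLength, mul_comm]

theorem gw_nonneg {p : ℝ} (hp : 0 ≤ p) (L : ℕ) (u v : V) : 0 ≤ gw G L p u v :=
  Finset.sum_nonneg fun n _ => mul_nonneg (by positivity) (wk_nonneg G n u v)

theorem eta_nonneg {p : ℝ} (hp : 0 ≤ p) (L : ℕ) (v : V) : 0 ≤ eta G L p v :=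
  Finset.sum_nonneg fun n _ => mul_nonneg (by positivity) (wk_nonneg G n v v)

theorem eta_mono {p q : ℝ} (hp : 0 ≤ p) (hpq : p ≤ q) (L : ℕ) (v : V) :
    eta G L p v ≤ eta G L q v := by
  refine Finset.sum_le_sum fun n _ => ?_
  have := wk_nonneg G n v v
  gcongr

theorem gw_step_right {p : ℝ} (hp : 0 ≤ p) (L : ℕ) (w y : V) {T : Finset V}
    (hT : T ⊆ G.neighborFinset y) :
    p * ∑ x ∈ T, gw G L p w x ≤ ∑ n ∈ range (L + 1), p ^ (n + 1) * wk G (n + 1) w y := by
  simp only [gw]
  rw [Finset.sum_comm, Finset.mul_sum]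
  refine Finset.sum_le_sum fun n _ => ?_
  rw [← Finset.mul_sum, ← mul_assoc, ← pow_succ', wk_succ_right]
  exact mul_le_mul_of_nonneg_left
    (Finset.sum_le_sum_of_subset_of_nonneg hT fun x _ _ => wk_nonneg G n w x) (by positivity)

theorem gw_step_left {p : ℝ} (hp : 0 ≤ p) (L : ℕ) (y v : V) {T : Finset V}
    (hT : T ⊆ G.neighborFinset y) :
    p * ∑ x ∈ T, gw G L p x v ≤ ∑ n ∈ range (L + 1), p ^ (n + 1) * wk G (n + 1) y v := by
  simp only [gw]
  rw [Finset.sum_comm, Finset.mul_sum]
  refine Finset.sum_le_sum fun n _ => ?_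
  rw [← Finset.mul_sum, ← mul_assoc, ← pow_succ', wk_succ]
  exact mul_le_mul_of_nonneg_left
    (Finset.sum_le_sum_of_subset_of_nonneg hT fun x _ _ => wk_nonneg G n x v) (by positivity)

theorem gw_loop_le {p : ℝ} (hp : 0 ≤ p) (L : ℕ) (y : V) {T : Finset V}
    (hT : T ⊆ G.neighborFinset y) : p * ∑ x ∈ T, gw G L p y x ≤ eta G (L + 1) p y := by
  refine (gw_step_right G hp L y y hT).trans ?_
  rw [eta, Finset.sum_range_succ' _ (L + 1)]
  simp only [Nat.cast_zero, zero_mul, add_zero]
  refine Finset.sum_le_sum fun n _ => ?_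
  have : 0 ≤ p ^ (n + 1) * wk G (n + 1) y y := mul_nonneg (by positivity) (wk_nonneg G _ y y)
  push_cast
  nlinarith [n.cast_nonneg (α := ℝ)]

theorem double_sum_le (L : ℕ) (a : ℕ → ℝ) (ha : ∀ n, 0 ≤ a n) :
    ∑ n ∈ range (L + 1), ∑ m ∈ range (L + 1), a (n + m + 2) ≤
      ∑ N ∈ range (2 * L + 2 + 1), (N : ℝ) * a N := by
  rw [← Finset.sum_product']
  rw [← Finset.sum_fiberwise_of_maps_to (g := fun x : ℕ × ℕ => x.1 + x.2 + 2)
    (t := range (2 * L + 2 + 1))
    (fun x hx => by simp only [mem_product, mem_range] at hx ⊢; omega)]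
  refine Finset.sum_le_sum fun N _ => ?_
  rw [Finset.sum_congr rfl fun x hx => by rw [(Finset.mem_filter.1 hx).2], Finset.sum_const,
    nsmul_eq_mul]
  refine mul_le_mul_of_nonneg_right ?_ (ha N)
  rw [Nat.cast_le]
  calc _ ≤ (range N).card := Finset.card_le_card_of_injOn Prod.fst
        (fun x hx => by
          rw [Finset.coe_filter] at hx
          simp only [coe_range, Set.mem_Iio]
          have := hx.2
          omega)
        (fun x hx y hy h => by
          rw [Finset.coe_filter] at hx hy
          have := hx.2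
          have := hy.2
          exact Prod.ext h (by omega))
    _ = N := Finset.card_range N

theorem gw_triangle_le {p : ℝ} (hp : 0 ≤ p) (L : ℕ) (w : V) (T : Finset V)
    (N : V → Finset V) (hN : ∀ y ∈ T, N y ⊆ G.neighborFinset y) :
    ∑ y ∈ T, (p * ∑ x ∈ N y, gw G L p w x) * (p * ∑ x ∈ N y, gw G L p x w) ≤
      eta G (2 * L + 2) p w := by
  have hterm : ∀ y ∈ T, (p * ∑ x ∈ N y, gw G L p w x) * (p * ∑ x ∈ N y, gw G L p x w) ≤
      ∑ n ∈ range (L + 1), ∑ m ∈ range (L + 1),
        p ^ (n + m + 2) * (wk G (n + 1) w y * wk G (m + 1) y w) := by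
    intro y hy
    refine (mul_le_mul (gw_step_right G hp L w y (hN y hy)) (gw_step_left G hp L y w (hN y hy))
      (mul_nonneg hp (Finset.sum_nonneg fun x _ => gw_nonneg G hp L x w))
      (Finset.sum_nonneg fun n _ => mul_nonneg (by positivity) (wk_nonneg G _ _ _))).trans
      (le_of_eq ?_)
    rw [Finset.sum_mul_sum]
    exact Finset.sum_congr rfl fun n _ => Finset.sum_congr rfl fun m _ => by ring
  refine (Finset.sum_le_sum hterm).trans ?_
  rw [Finset.sum_comm, Finset.sum_congr rfl fun n _ => Finset.sum_comm]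
  refine le_trans (Finset.sum_le_sum fun n _ => Finset.sum_le_sum fun m _ => ?_)
    ((double_sum_le L (fun N => p ^ N * wk G N w w)
      fun N => mul_nonneg (by positivity) (wk_nonneg G N w w)).trans
      (le_of_eq (Finset.sum_congr rfl fun N _ => by rw [← mul_assoc])))
  rw [← Finset.mul_sum]
  refine mul_le_mul_of_nonneg_left ?_ (by positivity)
  rw [show n + m + 2 = (n + 1) + (m + 1) by omega]
  exact wk_conv_le G T _ _ w w

/-- the rows of the walk sums are square summable -/
theorem gw_sq_sum_le {p : ℝ} (hp : 0 ≤ p) (L : ℕ) (u : V) (T : Finset V) :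
    ∑ v ∈ T, gw G L p u v ^ 2 ≤ 1 + 2 * eta G (2 * L) p u := by
  have h1 : ∑ v ∈ T, gw G L p u v ^ 2 ≤
      ∑ x ∈ range (L + 1) ×ˢ range (L + 1), p ^ (x.1 + x.2) * wk G (x.1 + x.2) u u := by
    simp only [sq, gw, Finset.sum_mul_sum, Finset.sum_product]
    rw [Finset.sum_comm, Finset.sum_congr rfl fun n _ => Finset.sum_comm]
    refine Finset.sum_le_sum fun n _ => Finset.sum_le_sum fun m _ => ?_
    calc ∑ v ∈ T, p ^ n * wk G n u v * (p ^ m * wk G m u v)
        = p ^ (n + m) * ∑ v ∈ T, wk G n u v * wk G m v u := by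
          rw [Finset.mul_sum]
          exact Finset.sum_congr rfl fun v _ => by rw [wk_symm G m u v]; ring
      _ ≤ _ := mul_le_mul_of_nonneg_left (wk_conv_le G T n m u u) (by positivity)
  refine h1.trans ?_
  rw [← Finset.sum_fiberwise_of_maps_to (g := fun x : ℕ × ℕ => x.1 + x.2)
    (t := range (2 * L + 1))
    (fun x hx => by simp only [mem_product, mem_range] at hx ⊢; omega)]
  have hb : ∀ N ∈ range (2 * L + 1),
      ∑ x ∈ range (L + 1) ×ˢ range (L + 1) with x.1 + x.2 = N,
        p ^ (x.1 + x.2) * wk G (x.1 + x.2) u u ≤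
      (if N = 0 then 1 else 0) + 2 * ((N : ℝ) * p ^ N * wk G N u u) := by
    intro N _
    rw [Finset.sum_congr rfl fun x hx => by rw [(Finset.mem_filter.1 hx).2], Finset.sum_const,
      nsmul_eq_mul]
    have hc : ((range (L + 1) ×ˢ range (L + 1)).filter fun x => x.1 + x.2 = N).card ≤ N + 1 := by
      calc _ ≤ (range (N + 1)).card := Finset.card_le_card_of_injOn Prod.fst
            (fun x hx => by
              rw [Finset.coe_filter] at hx
              simp only [coe_range, Set.mem_Iio]
              have := hx.2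
              omega)
            (fun x hx y hy h => by
              rw [Finset.coe_filter] at hx hy
              have := hx.2
              have := hy.2
              exact Prod.ext h (by omega))
        _ = N + 1 := Finset.card_range _
    have hnn : 0 ≤ p ^ N * wk G N u u := mul_nonneg (by positivity) (wk_nonneg G N u u)
    refine (mul_le_mul_of_nonneg_right (Nat.cast_le.2 hc) hnn).trans ?_
    rcases Nat.eq_zero_or_pos N with rfl | hN
    · simp [wk_zero]
    · have : (1 : ℝ) ≤ N := by exact_mod_cast hN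
      rw [if_neg (by omega)]
      push_cast
      nlinarith
  refine (Finset.sum_le_sum hb).trans (le_of_eq ?_)
  rw [Finset.sum_add_distrib, Finset.sum_ite_eq', if_pos (by simp), ← Finset.mul_sum]
  rfl

end

end Vale.Agent.P165
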