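import Vale.Agent.P165.Prob
import Vale.Agent.P165.Walks

/-!
Connection events of finite edge sets and the path union bounds (P165).
-/

namespace Vale.Agent.P165

noncomputable section

open Finset SimpleGraph

set_option linter.unusedSectionVars false

variable {V : Type*} [DecidableEq V] (G : SimpleGraph V) [G.LocallyFinite]

/-- connection by the edges of a set -/
def Conn (A : Set (Sym2 V)) (x y : V) : Prop := (fromEdgeSet A).Reachable x y

theorem Conn.mono {A B : Set (Sym2 V)} (h : A ⊆ B) {x y : V} (hc : Conn A x y) : Conn B x y :=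
  Reachable.mono (fromEdgeSet_mono h) hc

theorem conn_refl (A : Set (Sym2 V)) (x : V) : Conn A x x := Reachable.refl x

theorem Conn.symm {A : Set (Sym2 V)} {x y : V} (h : Conn A x y) : Conn A y x :=
  Reachable.symm h

theorem Conn.trans {A : Set (Sym2 V)} {x y z : V} (h : Conn A x y) (h' : Conn A y z) :
    Conn A x z := Reachable.trans h h'

theorem conn_edge {A : Set (Sym2 V)} {x y : V} (h : G.Adj x y) (hA : s(x, y) ∈ A) : Conn A x y :=
  Adj.reachable ((fromEdgeSet_adj A).2 ⟨hA, h.ne⟩)

theorem Conn.exists_path {A : Set (Sym2 V)} (hA : A ⊆ G.edgeSet) {x y : V} (h : Conn A x y) :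
    ∃ q : G.Walk x y, q.IsPath ∧ ∀ e ∈ q.edges, e ∈ A := by
  obtain ⟨q, hq⟩ := Reachable.exists_isPath h
  have hle : fromEdgeSet A ≤ G := (fromEdgeSet_le G).2 (Set.sdiff_subset.trans hA)
  refine ⟨q.mapLe hle, hq.mapLe hle, fun e he => ?_⟩
  rw [Walk.edges_mapLe_eq_edges] at he
  have := q.edges_subset_edgeSet he
  rw [edgeSet_fromEdgeSet] at this
  exact this.1

theorem conn_of_walk {A : Set (Sym2 V)} {x y : V} (q : G.Walk x y) (h : ∀ e ∈ q.edges, e ∈ A) :
    Conn A x y :=
  (q.transfer (fromEdgeSet A) fun e he => by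
    rw [edgeSet_fromEdgeSet]
    exact ⟨h e he, G.not_isDiag_of_mem_edgeSet (q.edges_subset_edgeSet he)⟩).reachable

open Classical in
/-- the edges inside a vertex set -/
def ES (S : Finset V) : Finset (Sym2 V) := S.sym2.filter fun e => e ∈ G.edgeSet

theorem mem_ES {S : Finset V} {e : Sym2 V} : e ∈ ES G S ↔ (∀ v ∈ e, v ∈ S) ∧ e ∈ G.edgeSet := by
  simp [ES, Finset.mem_sym2_iff]

theorem mk_mem_ES {S : Finset V} {x y : V} : s(x, y) ∈ ES G S ↔ x ∈ S ∧ y ∈ S ∧ G.Adj x y := by
  simp [mem_ES, Sym2.mem_iff, and_assoc]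

theorem ES_subset (S : Finset V) : ((ES G S : Finset (Sym2 V)) : Set (Sym2 V)) ⊆ G.edgeSet :=
  fun _ he => ((mem_ES G).1 he).2

theorem coe_subset_edgeSet {S : Finset V} {A : Finset (Sym2 V)} (h : A ⊆ ES G S) :
    ((A : Finset (Sym2 V)) : Set (Sym2 V)) ⊆ G.edgeSet :=
  (Finset.coe_subset.2 h).trans (ES_subset G S)

theorem mem_of_walk {S : Finset V} {x y : V} (q : G.Walk x y) (hx : x ∈ S)
    (h : ∀ e ∈ q.edges, e ∈ ES G S) : ∀ v ∈ q.support, v ∈ S := by
  induction q with
  | nil => simpa using hx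
  | @cons a b c hab r ih =>
    intro v hv
    rw [Walk.support_cons, List.mem_cons] at hv
    rcases hv with rfl | hv
    · exact hx
    · exact ih ((mk_mem_ES G (x := a) (y := b)).1 (h _ (by simp))).2.1 (fun e he => h e (by simp [he])) v hv

theorem length_le_card {E : Finset (Sym2 V)} {x y : V} (q : G.Walk x y) (hq : q.IsPath)
    (h : ∀ e ∈ q.edges, e ∈ E) : q.length ≤ E.card := by
  rw [← q.length_edges, ← List.toFinset_card_of_nodup hq.isTrail.edges_nodup]
  exact Finset.card_le_card fun e he => h e (List.mem_toFinset.1 he)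

theorem card_edges {x y : V} (q : G.Walk x y) (hq : q.IsPath) :
    q.edges.toFinset.card = q.length := by
  rw [List.toFinset_card_of_nodup hq.isTrail.edges_nodup, q.length_edges]

/-- an event that forces prescribed open edges -/
theorem pr_open_le {E T : Finset (Sym2 V)} {p : ℝ} (hp : 0 ≤ p) (hp1 : p ≤ 1)
    {Q : Finset (Sym2 V) → Prop} (hQ : ∀ A B, A ⊆ B → Q A → Q B) :
    pr E p (fun A => T ⊆ A ∧ Q (A \ T)) ≤ p ^ T.card * pr E p Q := by
  by_cases hT : T ⊆ E
  · rw [pr_open_and hT]
    exact mul_le_mul_of_nonneg_left (pr_subset_le Finset.sdiff_subset hp hp1 hQ) (by positivity)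
  · rw [pr_false E p fun A hA h => hT (h.1.trans hA)]
    exact mul_nonneg (by positivity) (pr_nonneg E hp hp1 Q)

theorem conn_event_mono (x y : V) :
    ∀ A B : Finset (Sym2 V), A ⊆ B → Conn (A : Set (Sym2 V)) x y → Conn (B : Set (Sym2 V)) x y :=
  fun _ _ h hc => hc.mono (Finset.coe_subset.2 h)

/-- the probability of a connection inside the edges of `S` -/
def tau (S : Finset V) (p : ℝ) (x y : V) : ℝ :=
  pr (ES G S) p fun A => Conn (A : Set (Sym2 V)) x y

theorem tau_nonneg (S : Finset V) {p : ℝ} (hp : 0 ≤ p) (hp1 : p ≤ 1) (x y : V) :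
    0 ≤ tau G S p x y := pr_nonneg _ hp hp1 _

theorem tau_self (S : Finset V) (p : ℝ) (x : V) : tau G S p x x = 1 :=
  (pr_congr fun A _ => iff_of_true (conn_refl (A : Set (Sym2 V)) x) trivial).trans (pr_top _ p)

/-- union bound over paths -/
theorem tau_le_gw (S : Finset V) {p : ℝ} (hp : 0 ≤ p) (hp1 : p ≤ 1) (x y : V) :
    tau G S p x y ≤ gw G (ES G S).card p x y := by
  refine le_trans ?_ (sum_pths_le G hp _ x y)
  refine (pr_sum_le hp hp1 (pths G (ES G S).card x y)
    (fun q A => q.edges.toFinset ⊆ A ∧ True) fun A hA h => ?_).trans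
    (Finset.sum_le_sum fun q hq => ?_)
  · obtain ⟨q, hq, hqA⟩ := h.exists_path G (coe_subset_edgeSet G hA)
    exact ⟨q, (mem_pths G).2 ⟨length_le_card G q hq fun e he => hA (hqA e he), hq⟩,
      fun e he => hqA e (List.mem_toFinset.1 he), trivial⟩
  · refine (pr_open_le hp hp1 (Q := fun _ => True) fun _ _ _ h => h).trans (le_of_eq ?_)
    rw [pr_top, mul_one, card_edges G q ((mem_pths G).1 hq).2]

/-- a connection forced through a vertex -/
theorem pr_through_le {S : Finset V} {o : V} {p : ℝ} (hp : 0 ≤ p) (hp1 : p ≤ 1) (x y : V) :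
    pr (ES G S) p (fun A => Conn (A : Set (Sym2 V)) o x ∧
      ¬ Conn ((A.filter fun e => y ∉ e : Finset (Sym2 V)) : Set (Sym2 V)) o x) ≤
      tau G S p o y * gw G (ES G S).card p y x := by
  refine (pr_sum_le hp hp1 (pths G (ES G S).card y x) (fun q A => q.edges.toFinset ⊆ A ∧
    Conn ((A \ q.edges.toFinset : Finset (Sym2 V)) : Set (Sym2 V)) o y) fun A hA h => ?_).trans ?_
  · obtain ⟨q, hq, hqA⟩ := h.1.exists_path G (coe_subset_edgeSet G hA)
    have hy : y ∈ q.support := by
      by_contra hy
      refine h.2 (conn_of_walk G q fun e he => ?_)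
      exact Finset.mem_coe.2 (Finset.mem_filter.2
        ⟨hqA e he, fun hye => hy (Walk.mem_support_of_mem_edges he hye)⟩)
    have hsub := q.edges_dropUntil_subset_edges hy
    refine ⟨q.dropUntil y hy, (mem_pths G).2 ⟨?_, hq.dropUntil hy⟩, fun e he => ?_, ?_⟩
    · exact (q.length_dropUntil_le_length hy).trans
        (length_le_card G q hq fun e he => hA (hqA e he))
    · exact hqA e (hsub (List.mem_toFinset.1 he))
    · have hnd := hq.isTrail.edges_nodup
      rw [← q.take_spec hy, Walk.edges_append] at hnd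
      refine conn_of_walk G (q.takeUntil y hy) fun e he => ?_
      rw [Finset.coe_sdiff, Set.mem_sdiff]
      exact ⟨hqA e (q.edges_takeUntil_subset_edges hy he),
        fun h' => List.disjoint_of_nodup_append hnd he (List.mem_toFinset.1 h')⟩
  · refine le_trans (Finset.sum_le_sum fun q hq => ?_) (le_trans (le_of_eq (Finset.mul_sum _ _ _).symm)
      (mul_le_mul_of_nonneg_left (sum_pths_le G hp _ y x) (tau_nonneg G S hp hp1 o y)))
    refine (pr_open_le hp hp1
      (Q := fun A : Finset (Sym2 V) => Conn (A : Set (Sym2 V)) o y) (conn_event_mono o y)).trans (le_of_eq ?_)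
    rw [card_edges G q ((mem_pths G).1 hq).2, mul_comm, tau]

/-- the first vertex of a path in a given set of vertices -/
theorem exists_first (X : List V) {a b : V} (r : G.Walk a b) (hr : r.IsPath) (hb : b ∈ X) :
    ∃ w ∈ X, ∃ r' : G.Walk a w, r'.IsPath ∧ r'.edges ⊆ r.edges ∧ r'.support ⊆ r.support ∧
      ∀ v ∈ r'.support, v ∈ X → v = w := by
  induction r with
  | nil => exact ⟨_, hb, Walk.nil, Walk.IsPath.nil, List.Subset.refl _, List.Subset.refl _, by simp⟩
  | @cons a c b hac r ih =>
    by_cases ha : a ∈ X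
    · exact ⟨a, ha, Walk.nil, Walk.IsPath.nil, by simp, by simp, by simp⟩
    · rw [Walk.cons_isPath_iff] at hr
      obtain ⟨w, hw, r', hp', he', hs', hfirst⟩ := ih hr.1 hb
      refine ⟨w, hw, Walk.cons hac r', hp'.cons fun h => hr.2 (hs' h), ?_, ?_, ?_⟩
      · simp only [Walk.edges_cons]
        exact List.cons_subset_cons _ he'
      · simp only [Walk.support_cons]
        exact List.cons_subset_cons _ hs'
      · intro v hv hvX
        rw [Walk.support_cons, List.mem_cons] at hv
        rcases hv with rfl | hv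
        · exact absurd hvX ha
        · exact hfirst v hv hvX

/-- two connections from the origin, by their branch vertex -/
theorem pr_pair_le {S : Finset V} {o : V} (ho : o ∈ S) {p : ℝ} (hp : 0 ≤ p) (hp1 : p ≤ 1)
    (x x' : V) :
    pr (ES G S) p (fun A => Conn (A : Set (Sym2 V)) o x ∧ Conn (A : Set (Sym2 V)) o x') ≤
      ∑ w ∈ S, tau G S p o w *
        (gw G (ES G S).card p w x * gw G (ES G S).card p x' w) := by
  set L := (ES G S).card with hL
  refine (pr_sum_le hp hp1 (S.sigma fun w => pths G L w x ×ˢ pths G L x' w)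
    (fun i A => Disjoint i.2.1.edges.toFinset i.2.2.edges.toFinset ∧
      (i.2.1.edges.toFinset ∪ i.2.2.edges.toFinset ⊆ A ∧
      Conn ((A \ (i.2.1.edges.toFinset ∪ i.2.2.edges.toFinset) : Finset (Sym2 V)) : Set (Sym2 V))
        o i.1)) fun A hA h => ?_).trans ?_
  · obtain ⟨q, hq, hqA⟩ := h.1.exists_path G (coe_subset_edgeSet G hA)
    obtain ⟨q₀, hq₀, hq₀A⟩ := h.2.symm.exists_path G (coe_subset_edgeSet G hA)
    obtain ⟨w, hw, r, hr, hre, -, hfirst⟩ :=
      exists_first G q.support q₀ hq₀ q.start_mem_support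
    have hsub := q.edges_dropUntil_subset_edges hw
    have hqr : ∀ e ∈ q.edges, e ∉ r.edges := by
      intro e he he'
      induction e using Sym2.ind with
      | h a b =>
        have ha := hfirst a (r.fst_mem_support_of_mem_edges he') (q.fst_mem_support_of_mem_edges he)
        have hb := hfirst b (r.snd_mem_support_of_mem_edges he') (q.snd_mem_support_of_mem_edges he)
        exact (G.ne_of_adj (q.adj_of_mem_edges he)) (ha.trans hb.symm)
    refine ⟨⟨w, (q.dropUntil w hw, r)⟩, Finset.mem_sigma.2 ⟨?_, Finset.mem_product.2 ⟨?_, ?_⟩⟩,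
      ?_, ?_, ?_⟩
    · exact mem_of_walk G q ho (fun e he => hA (hqA e he)) w hw
    · exact (mem_pths G).2 ⟨(q.length_dropUntil_le_length hw).trans
        (length_le_card G q hq fun e he => hA (hqA e he)), hq.dropUntil hw⟩
    · exact (mem_pths G).2 ⟨length_le_card G r hr fun e he => hA (hq₀A e (hre he)), hr⟩
    · exact Finset.disjoint_left.2 fun e he he' =>
        hqr e (hsub (List.mem_toFinset.1 he)) (List.mem_toFinset.1 he')
    · refine Finset.union_subset (fun e he => ?_) fun e he => ?_
      · exact hqA e (hsub (List.mem_toFinset.1 he))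
      · exact hq₀A e (hre (List.mem_toFinset.1 he))
    · have hnd := hq.isTrail.edges_nodup
      rw [← q.take_spec hw, Walk.edges_append] at hnd
      refine conn_of_walk G (q.takeUntil w hw) fun e he => ?_
      have heq := q.edges_takeUntil_subset_edges hw he
      rw [Finset.coe_sdiff, Set.mem_sdiff, Finset.coe_union, Set.mem_union]
      refine ⟨hqA e heq, fun h' => h'.elim
        (fun h'' => List.disjoint_of_nodup_append hnd he (List.mem_toFinset.1 h''))
        (fun h'' => hqr e heq (List.mem_toFinset.1 h''))⟩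
  · rw [Finset.sum_sigma]
    refine Finset.sum_le_sum fun w hw => ?_
    refine le_trans (Finset.sum_le_sum (g := fun i : G.Walk w x × G.Walk x' w =>
      tau G S p o w * (p ^ i.1.length * p ^ i.2.length)) fun i hi => ?_)
      (le_trans (le_of_eq ?_) (mul_le_mul_of_nonneg_left
        (mul_le_mul (sum_pths_le G hp L w x) (sum_pths_le G hp L x' w)
          (Finset.sum_nonneg fun i _ => by positivity) (gw_nonneg G hp L w x))
        (tau_nonneg G S hp hp1 o w)))
    · obtain ⟨hi1, hi2⟩ := Finset.mem_product.1 hi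
      by_cases hd : Disjoint i.1.edges.toFinset i.2.edges.toFinset
      · refine (pr_mono hp hp1 (R := fun A =>
          i.1.edges.toFinset ∪ i.2.edges.toFinset ⊆ A ∧
          Conn ((A \ (i.1.edges.toFinset ∪ i.2.edges.toFinset) : Finset (Sym2 V)) : Set (Sym2 V))
            o w) fun A _ h => h.2).trans ?_
        refine (pr_open_le hp hp1 (Q := fun A : Finset (Sym2 V) => Conn (A : Set (Sym2 V)) o w)
          (conn_event_mono o w)).trans (le_of_eq ?_)
        rw [Finset.card_union_of_disjoint hd, card_edges G _ ((mem_pths G).1 hi1).2,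
          card_edges G _ ((mem_pths G).1 hi2).2, pow_add, tau, mul_comm]
      · rw [pr_false _ _ fun A _ h => hd h.1]
        exact mul_nonneg (tau_nonneg G S hp hp1 o w) (by positivity)
    · rw [Finset.sum_product, Finset.sum_mul_sum, Finset.mul_sum]
      exact Finset.sum_congr rfl fun a _ => by rw [Finset.mul_sum]

end

end Vale.Agent.P165
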