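import Vale.Agent.P165.Phi

/-!
The differential inequality of Duminil-Copin and Tassion for finite boxes (P165).
-/

namespace Vale.Agent.P165

noncomputable section

open Finset SimpleGraph

set_option linter.unusedSectionVars false

variable {V : Type*} [DecidableEq V] (G : SimpleGraph V) [G.LocallyFinite]

/-- the edges meeting `B` -/
def EB (B : Finset V) : Finset (Sym2 V) :=
  B.biUnion fun x => (G.neighborFinset x).image fun y => s(x, y)

theorem mk_mem_EB {B : Finset V} {x y : V} (hx : x ∈ B) (h : G.Adj x y) : s(x, y) ∈ EB G B :=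
  Finset.mem_biUnion.2 ⟨x, hx, Finset.mem_image.2 ⟨y, (G.mem_neighborFinset x y).2 h, rfl⟩⟩

theorem EB_subset (B : Finset V) : ((EB G B : Finset (Sym2 V)) : Set (Sym2 V)) ⊆ G.edgeSet := by
  intro e he
  obtain ⟨x, _, he⟩ := Finset.mem_biUnion.1 (Finset.mem_coe.1 he)
  obtain ⟨y, hy, rfl⟩ := Finset.mem_image.1 he
  exact (G.mem_neighborFinset x y).1 hy

theorem ES_subset_EB {S B : Finset V} (h : S ⊆ B) : ES G S ⊆ EB G B := by
  intro e he
  induction e using Sym2.ind with
  | h x y =>
    obtain ⟨hx, -, hxy⟩ := (mk_mem_ES G).1 he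
    exact mk_mem_EB G (h hx) hxy

/-- connected to the outside of `B` -/
def Out (B : Finset V) (A : Set (Sym2 V)) (v : V) : Prop := ∃ z, z ∉ B ∧ Conn A v z

theorem Out.mono {B : Finset V} {A A' : Set (Sym2 V)} (h : A ⊆ A') {v : V} (hv : Out B A v) :
    Out B A' v := hv.imp fun _ hz => ⟨hz.1, hz.2.mono h⟩

theorem Out.of_conn {B : Finset V} {A : Set (Sym2 V)} {u v : V} (h : Conn A u v)
    (hv : Out B A v) : Out B A u := hv.imp fun _ hz => ⟨hz.1, h.trans hz.2⟩

open Classical in
/-- the vertices of `B` not connected to the outside -/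
def inBox (B : Finset V) (A : Finset (Sym2 V)) : Finset V :=
  B.filter fun v => ¬ Out B (A : Set (Sym2 V)) v

theorem mem_inBox {B : Finset V} {A : Finset (Sym2 V)} {v : V} :
    v ∈ inBox B A ↔ v ∈ B ∧ ¬ Out B (A : Set (Sym2 V)) v := by simp [inBox]

/-- closing edges between unconnected vertices changes nothing -/
theorem out_iff_of_dead {B : Finset V} {A A' : Set (Sym2 V)} (hsub : A' ⊆ A)
    (h : ∀ a b, s(a, b) ∈ A → s(a, b) ∉ A' → ¬ Out B A' b) (v : V) :
    Out B A v ↔ Out B A' v := by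
  refine ⟨?_, Out.mono hsub⟩
  rintro ⟨z, hz, ⟨w⟩⟩
  induction w with
  | nil => exact ⟨_, hz, conn_refl A' _⟩
  | @cons a b c hab r ih =>
    have hb := ih hz
    obtain ⟨hA, hne⟩ := (fromEdgeSet_adj A).1 hab
    by_cases hA' : s(a, b) ∈ A'
    · exact Out.of_conn (Adj.reachable ((fromEdgeSet_adj A').2 ⟨hA', hne⟩)) hb
    · exact absurd hb (h a b hA hA')

theorem inBox_congr {B : Finset V} {A A' : Finset (Sym2 V)}
    (h : ∀ v, Out B (A : Set (Sym2 V)) v ↔ Out B (A' : Set (Sym2 V)) v) :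
    inBox B A = inBox B A' := by
  ext v
  simp only [mem_inBox, h]

/-- the event `inBox = S` ignores the edges inside `S` -/
theorem inBox_sdiff (B S : Finset V) (A : Finset (Sym2 V)) :
    inBox B A = S ↔ inBox B (A \ ES G S) = S := by
  have key : (∀ v ∈ S, ¬ Out B ((A \ ES G S : Finset (Sym2 V)) : Set (Sym2 V)) v) →
      inBox B A = inBox B (A \ ES G S) := fun hS =>
    inBox_congr (out_iff_of_dead (Finset.coe_subset.2 Finset.sdiff_subset) fun a b hA hA' => by
      rw [Finset.mem_coe, Finset.mem_sdiff, not_and, not_not] at hA'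
      exact hS b ((mk_mem_ES G).1 (hA' hA)).2.1)
  constructor
  · intro h
    rw [← key fun v hv hout => ?_, h]
    exact (mem_inBox.1 (h.symm ▸ hv)).2 (hout.mono (Finset.coe_subset.2 Finset.sdiff_subset))
  · intro h
    rw [key fun v hv => (mem_inBox.1 (h.symm ▸ hv)).2, h]

/-- the probability of reaching the outside of `B` -/
def theta (B : Finset V) (p : ℝ) (o : V) : ℝ :=
  pr (EB G B) p fun A => Out B (A : Set (Sym2 V)) o

theorem one_sub_theta {B : Finset V} {o : V} (ho : o ∈ B) (p : ℝ) :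
    1 - theta G B p o =
      ∑ S ∈ B.powerset.filter (fun S => o ∈ S), pr (EB G B) p (fun A => inBox B A = S) := by
  rw [theta, ← pr_compl]
  simp only [pr]
  rw [Finset.sum_comm]
  refine Finset.sum_congr rfl fun A _ => ?_
  rw [← Finset.mul_sum]
  refine congrArg (wt (EB G B) p A * ·) ?_
  by_cases h : Out B (A : Set (Sym2 V)) o
  · rw [ind_false (not_not.2 h), Finset.sum_eq_zero fun S hS => ind_false fun e => ?_]
    exact (mem_inBox.1 (e.symm ▸ (Finset.mem_filter.1 hS).2)).2 h
  · rw [ind_true h, Finset.sum_eq_single (inBox B A), ind_true rfl]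
    · exact fun S _ hne => ind_false fun e => hne e.symm
    · refine fun hn => absurd (Finset.mem_filter.2 ⟨Finset.mem_powerset.2 ?_, ?_⟩) hn
      · exact fun v hv => (mem_inBox.1 hv).1
      · exact mem_inBox.2 ⟨ho, h⟩

/-- closed pivotal edges dominate the boundary sums -/
theorem pivotal_ge {B : Finset V} {o : V} {p : ℝ} (hp : 0 ≤ p) (hp1 : p ≤ 1) :
    ∑ S ∈ B.powerset.filter (fun S => o ∈ S),
      ∑ x ∈ S, ∑ y ∈ G.neighborFinset x \ S,
        pr (EB G B) p (fun A => inBox B A = S) * tau G S p o x ≤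
      ∑ e ∈ EB G B, pr (EB G B) p (fun A => e ∉ A ∧
        (Out B ((insert e A : Finset (Sym2 V)) : Set (Sym2 V)) o ∧ ¬ Out B (A : Set (Sym2 V)) o)) := by
  set E := EB G B with hE
  have hprod : ∀ S ∈ B.powerset.filter (fun S => o ∈ S), ∀ x,
      pr E p (fun A => inBox B A = S) * tau G S p o x =
        pr E p (fun A => inBox B A = S ∧
          Conn ((A ∩ ES G S : Finset (Sym2 V)) : Set (Sym2 V)) o x) := by
    intro S hS x
    have hsub : ES G S ⊆ E := ES_subset_EB G (Finset.mem_powerset.1 (Finset.mem_filter.1 hS).1)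
    have e : E \ ES G S ∪ ES G S = E := Finset.sdiff_union_of_subset hsub
    have h0 : ∀ A C, A ⊆ E \ ES G S → C ⊆ ES G S →
        (A ∪ C) \ ES G S = A ∧ (A ∪ C) ∩ ES G S = C := by
      intro A C hA hC
      have hd : ∀ a ∈ A, a ∉ ES G S := fun a ha => (Finset.mem_sdiff.1 (hA ha)).2
      constructor <;> ext a <;> simp only [Finset.mem_sdiff, Finset.mem_union, Finset.mem_inter]
      · exact ⟨fun h => h.1.resolve_right fun hc => h.2 (hC hc), fun h => ⟨.inl h, hd a h⟩⟩
      · exact ⟨fun h => h.1.resolve_left fun ha => hd a ha h.2, fun h => ⟨.inr h, hC h⟩⟩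
    have e1 : pr E p (fun A => inBox B A = S) = pr (E \ ES G S) p (fun A => inBox B A = S) := by
      conv_lhs => rw [← e]
      rw [pr_mul (Q₁ := fun A => inBox B A = S) (Q₂ := fun _ => True) Finset.sdiff_disjoint p
        fun A C hA hC => ?_, pr_top, mul_one]
      rw [inBox_sdiff G B S (A ∪ C), (h0 A C hA hC).1]
      simp
    rw [e1, tau]
    conv_rhs => rw [← e]
    rw [pr_mul (Q₁ := fun A => inBox B A = S)
      (Q₂ := fun C => Conn (C : Set (Sym2 V)) o x) Finset.sdiff_disjoint p fun A C hA hC => ?_]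
    rw [inBox_sdiff G B S (A ∪ C), (h0 A C hA hC).1, (h0 A C hA hC).2]
  rw [Finset.sum_congr rfl fun S hS => Finset.sum_congr rfl fun x _ =>
    Finset.sum_congr rfl fun y _ => hprod S hS x]
  simp only [pr]
  rw [Finset.sum_congr rfl fun S _ => Finset.sum_congr rfl fun x _ => Finset.sum_comm,
    Finset.sum_congr rfl fun S _ => Finset.sum_comm, Finset.sum_comm]
  conv_rhs => rw [Finset.sum_comm]
  refine Finset.sum_le_sum fun A hA => ?_
  simp only [← Finset.mul_sum]
  refine mul_le_mul_of_nonneg_left ?_ (wt_nonneg E hp hp1 A)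
  by_cases hS : inBox B A ∈ B.powerset.filter (fun S => o ∈ S)
  · rw [Finset.sum_eq_single_of_mem _ hS fun S _ hne => Finset.sum_eq_zero fun x _ =>
      Finset.sum_eq_zero fun y _ => ind_false fun h => hne h.1.symm]
    set S := inBox B A with hSdef
    rw [Finset.sum_sigma']
    have hinj : Set.InjOn (fun i : Σ _ : V, V => s(i.1, i.2))
        ((S.sigma fun x => G.neighborFinset x \ S : Finset (Σ _ : V, V)) : Set (Σ _ : V, V)) := by
      rintro ⟨a, b⟩ hab ⟨c, d⟩ hcd h
      simp only [Finset.coe_sigma, Set.mem_sigma_iff, Finset.mem_coe, Finset.mem_sdiff] at hab hcd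
      rcases Sym2.eq_iff.1 h with ⟨h1, h2⟩ | ⟨h1, h2⟩
      · cases h1; cases h2; rfl
      · exact absurd (show d ∈ S from (show a = d from h1) ▸ hab.1) hcd.2.2
    refine le_trans (Finset.sum_le_sum (g := fun i : Σ _ : V, V =>
      ind (s(i.1, i.2) ∉ A ∧
        (Out B ((insert s(i.1, i.2) A : Finset (Sym2 V)) : Set (Sym2 V)) o ∧
          ¬ Out B (A : Set (Sym2 V)) o))) fun i hi => ?_) ?_
    · obtain ⟨hx, hy⟩ := Finset.mem_sigma.1 hi
      rw [Finset.mem_sdiff, mem_neighborFinset] at hy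
      refine ind_le fun h => ?_
      have hnot := (mem_inBox.1 (hSdef ▸ (Finset.mem_filter.1 hS).2)).2
      have hxB := mem_inBox.1 (hSdef ▸ hx)
      have hout : i.2 ∉ B ∨ Out B (A : Set (Sym2 V)) i.2 := by
        by_cases hb : i.2 ∈ B
        · exact .inr (by_contra fun hn => hy.2 (hSdef ▸ mem_inBox.2 ⟨hb, hn⟩))
        · exact .inl hb
      have hyout : Out B (A : Set (Sym2 V)) i.2 :=
        hout.elim (fun hb => ⟨_, hb, conn_refl (A : Set (Sym2 V)) _⟩) id
      refine ⟨fun hmem => hxB.2 (Out.of_conn (conn_edge G hy.1 (Finset.mem_coe.2 hmem)) hyout),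
        ?_, hnot⟩
      refine Out.of_conn ?_ (hyout.mono (Finset.coe_subset.2 (Finset.subset_insert _ _)))
      exact (h.2.mono (Finset.coe_subset.2
        (Finset.inter_subset_left.trans (Finset.subset_insert _ _)))).trans
        (conn_edge G hy.1 (Finset.mem_coe.2 (Finset.mem_insert_self _ _)))
    · rw [← Finset.sum_image (f := fun e => ind (e ∉ A ∧
        (Out B ((insert e A : Finset (Sym2 V)) : Set (Sym2 V)) o ∧
          ¬ Out B (A : Set (Sym2 V)) o))) hinj]
      refine Finset.sum_le_sum_of_subset_of_nonneg (fun e he => ?_) fun e _ _ => ind_nonneg _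
      obtain ⟨i, hi, rfl⟩ := Finset.mem_image.1 he
      obtain ⟨hx, hy⟩ := Finset.mem_sigma.1 hi
      exact mk_mem_EB G (mem_inBox.1 (hSdef ▸ hx)).1
        ((G.mem_neighborFinset _ _).1 (Finset.mem_sdiff.1 hy).1)
  · refine le_trans (le_of_eq (Finset.sum_eq_zero fun S hS' => Finset.sum_eq_zero fun x _ =>
      Finset.sum_eq_zero fun y _ => ind_false fun h => hS (h.1.symm ▸ hS'))) ?_
    exact Finset.sum_nonneg fun e _ => ind_nonneg _

theorem out_event_mono (B : Finset V) (o : V) (A A' : Finset (Sym2 V)) (h : A ⊆ A')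
    (hA : Out B (A : Set (Sym2 V)) o) : Out B (A' : Set (Sym2 V)) o :=
  hA.mono (Finset.coe_subset.2 h)

/-- the derivative of `theta` -/
def dtheta (B : Finset V) (p : ℝ) (o : V) : ℝ :=
  ∑ e ∈ EB G B,
    (pr ((EB G B).erase e) p (fun A => Out B ((insert e A : Finset (Sym2 V)) : Set (Sym2 V)) o) -
      pr ((EB G B).erase e) p (fun A => Out B (A : Set (Sym2 V)) o))

theorem dtheta_nonneg (B : Finset V) {p : ℝ} (hp : 0 ≤ p) (hp1 : p ≤ 1) (o : V) :
    0 ≤ dtheta G B p o :=
  Finset.sum_nonneg fun _ _ => sub_nonneg.2 (pr_mono hp hp1 fun _ _ h =>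
    out_event_mono B o _ _ (Finset.subset_insert _ _) h)

theorem one_sub_theta_le_dtheta {B : Finset V} {o : V} (ho : o ∈ B) {p : ℝ} (hp : 0 ≤ p)
    (hp1 : p ≤ 1) (hphi : ∀ S : Finset V, o ∈ S → 1 ≤ phi G S p o) :
    1 - theta G B p o ≤ dtheta G B p o := by
  have h1 : p * ∑ S ∈ B.powerset.filter (fun S => o ∈ S),
      ∑ x ∈ S, ∑ y ∈ G.neighborFinset x \ S,
        pr (EB G B) p (fun A => inBox B A = S) * tau G S p o x ≥ 1 - theta G B p o := by
    rw [one_sub_theta G ho, Finset.mul_sum]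
    refine Finset.sum_le_sum fun S hS => ?_
    have hnn : 0 ≤ pr (EB G B) p (fun A => inBox B A = S) := pr_nonneg _ hp hp1 _
    calc pr (EB G B) p (fun A => inBox B A = S)
        ≤ pr (EB G B) p (fun A => inBox B A = S) * phi G S p o :=
          le_mul_of_one_le_right hnn (hphi S (Finset.mem_filter.1 hS).2)
      _ = _ := by
          rw [phi]
          simp only [Finset.sum_const, nsmul_eq_mul, Finset.mul_sum]
          exact Finset.sum_congr rfl fun x _ => by ring
  have h2 := pivotal_ge G (B := B) (o := o) hp hp1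
  have h3 : ∑ e ∈ EB G B, pr (EB G B) p (fun A => e ∉ A ∧
      (Out B ((insert e A : Finset (Sym2 V)) : Set (Sym2 V)) o ∧ ¬ Out B (A : Set (Sym2 V)) o)) =
      (1 - p) * dtheta G B p o := by
    rw [dtheta, Finset.mul_sum]
    refine Finset.sum_congr rfl fun e he => ?_
    rw [← pr_closed he, pr_and_not fun A _ h =>
      out_event_mono B o _ _ (Finset.subset_insert _ _) h]
  rw [h3] at h2
  have hd := dtheta_nonneg G B hp hp1 o
  have h4 : p * ((1 - p) * dtheta G B p o) ≤ dtheta G B p o := by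
    rw [← mul_assoc]
    exact mul_le_of_le_one_left hd (by nlinarith)
  linarith [mul_le_mul_of_nonneg_left h2 hp]

/-- percolation to the boundary of every finite box -/
theorem theta_ge {B : Finset V} {o : V} (ho : o ∈ B) {p₀ q : ℝ} (h0 : 0 ≤ p₀) (hpq : p₀ ≤ q)
    (hq : q ≤ 1) (hphi : ∀ p, p₀ ≤ p → p ≤ q → ∀ S : Finset V, o ∈ S → 1 ≤ phi G S p o) :
    (q - p₀) / (1 + (q - p₀)) ≤ theta G B q o := by
  have hd : ∀ x, HasDerivAt (fun s => theta G B s o) (dtheta G B x o) x := fun x =>
    hasDerivAt_pr (EB G B) _ x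
  have hmono : MonotoneOn (fun s => theta G B s o) (Set.Icc p₀ q) := by
    refine monotoneOn_of_deriv_nonneg (convex_Icc p₀ q)
      (fun x _ => (hd x).continuousAt.continuousWithinAt)
      (fun x _ => (hd x).differentiableAt.differentiableWithinAt) fun x hx => ?_
    rw [interior_Icc] at hx
    rw [(hd x).deriv]
    exact dtheta_nonneg G B (h0.trans hx.1.le) (hx.2.le.trans hq) o
  set c := 1 - theta G B q o with hc
  have hd' : ∀ x, HasDerivAt (fun s => theta G B s o - c * s) (dtheta G B x o - c * 1) x :=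
    fun x => (hd x).sub ((hasDerivAt_id x).const_mul c)
  have hmono' : MonotoneOn (fun s => theta G B s o - c * s) (Set.Icc p₀ q) := by
    refine monotoneOn_of_deriv_nonneg (convex_Icc p₀ q)
      (fun x _ => (hd' x).continuousAt.continuousWithinAt)
      (fun x _ => (hd' x).differentiableAt.differentiableWithinAt) fun x hx => ?_
    rw [interior_Icc] at hx
    rw [(hd' x).deriv]
    have := one_sub_theta_le_dtheta G ho (h0.trans hx.1.le) (hx.2.le.trans hq)
      (hphi x hx.1.le hx.2.le)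
    have hle : theta G B x o ≤ theta G B q o :=
      hmono ⟨hx.1.le, hx.2.le⟩ ⟨hpq, le_rfl⟩ hx.2.le
    linarith
  have hval : theta G B p₀ o - c * p₀ ≤ theta G B q o - c * q :=
    hmono' ⟨le_rfl, hpq⟩ ⟨hpq, le_rfl⟩ hpq
  have hnn : 0 ≤ theta G B p₀ o := pr_nonneg _ h0 (hpq.trans hq) _
  rw [div_le_iff₀ (by linarith)]
  simp only [hc] at hval
  nlinarith

end

end Vale.Agent.P165
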