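import Mathlib

/-!
Bernoulli bond percolation on a graph: the definitions used in the P165 hand-in.
-/

namespace Vale.Agent.P165

open MeasureTheory

noncomputable section

/-- the open subgraph: edges of `G` that lie in the configuration -/
def openGraph {V : Type*} (G : SimpleGraph V) (ω : Set (Sym2 V)) : SimpleGraph V :=
  G ⊓ SimpleGraph.fromEdgeSet ω

/-- Bernoulli bond percolation: each edge of `G` is open independently with probability `p` -/
def perc {V : Type*} (G : SimpleGraph V) (p : unitInterval) : Measure (Set (Sym2 V)) :=
  ProbabilityTheory.setBernoulli G.edgeSet p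

/-- the cluster of `x` is infinite -/
def InfCluster {V : Type*} (G : SimpleGraph V) (ω : Set (Sym2 V)) (x : V) : Prop :=
  {y | (openGraph G ω).Reachable x y}.Infinite

/-- there is an infinite cluster -/
def hasInfinite {V : Type*} (G : SimpleGraph V) : Set (Set (Sym2 V)) :=
  {ω | ∃ x, InfCluster G ω x}

/-- there is exactly one infinite cluster -/
def hasUnique {V : Type*} (G : SimpleGraph V) : Set (Set (Sym2 V)) :=
  {ω | (∃ x, InfCluster G ω x) ∧
    ∀ x y, InfCluster G ω x → InfCluster G ω y → (openGraph G ω).Reachable x y}

/-- `p_c`: the infimum of the `p` with positive probability of an infinite cluster -/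
def pc {V : Type*} (G : SimpleGraph V) : ℝ :=
  sInf ((↑) '' {p : unitInterval | 0 < perc G p (hasInfinite G)})

/-- `p_u`: the infimum of the `p` with almost surely exactly one infinite cluster -/
def pu {V : Type*} (G : SimpleGraph V) : ℝ :=
  sInf ((↑) '' {p : unitInterval | perc G p (hasUnique G) = 1})

/-- finitely many orbits of the automorphism group -/
def QuasiTransitive {V : Type*} (G : SimpleGraph V) : Prop :=
  ∃ F : Finset V, ∀ v, ∃ u ∈ F, ∃ γ : G ≃g G, γ u = v

/-- the number of edges with exactly one endpoint in `A` -/
def edgeBoundary {V : Type*} (G : SimpleGraph V) (A : Finset V) : ℕ :=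
  ∑ x ∈ A, {y | G.Adj x y ∧ y ∉ A}.ncard

/-- the number of closed walks of length `n` based at `v` -/
def returns {V : Type*} (G : SimpleGraph V) (n : ℕ) (v : V) : ℕ :=
  {w : G.Walk v v | w.length = n}.ncard

end

end Vale.Agent.P165
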