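import Vale.Agent.P165.Measure

/-!
`p_c < p_u` from small return sums, and for large degree with a spectral gap (P165).
-/

namespace Vale.Agent.P165

noncomputable section

open Finset SimpleGraph MeasureTheory ProbabilityTheory

set_option linter.unusedSectionVars false

variable {V : Type*} [DecidableEq V] (G : SimpleGraph V) [G.LocallyFinite]

theorem measurableSet_infCluster [Countable V] (x : V) :
    MeasurableSet {ω | InfCluster G ω x} := by
  rw [show {ω | InfCluster G ω x} =
      ⋂ F : Finset V, ⋃ y : V, ⋃ _ : y ∉ F, {ω | (openGraph G ω).Reachable x y} from ?_]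
  · exact MeasurableSet.iInter fun F => MeasurableSet.iUnion fun y =>
      MeasurableSet.iUnion fun _ => measurableSet_reach G x y
  · ext ω
    simp only [Set.mem_ofPred_eq, Set.mem_iInter, Set.mem_iUnion, exists_prop, InfCluster]
    constructor
    · intro h F
      obtain ⟨y, hy, hyF⟩ := h.exists_notMem_finset F
      exact ⟨y, hyF, hy⟩
    · intro h hfin
      obtain ⟨y, hy, hr⟩ := h hfin.toFinset
      exact hy (hfin.mem_toFinset.2 hr)

theorem measurableSet_hasUnique [Countable V] : MeasurableSet (hasUnique G) := by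
  rw [show hasUnique G = (⋃ x, {ω | InfCluster G ω x}) ∩
      ⋂ x, ⋂ y, (({ω | InfCluster G ω x})ᶜ ∪ (({ω | InfCluster G ω y})ᶜ ∪
        {ω | (openGraph G ω).Reachable x y})) from ?_]
  · exact (MeasurableSet.iUnion fun x => measurableSet_infCluster G x).inter
      (MeasurableSet.iInter fun x => MeasurableSet.iInter fun y =>
        (measurableSet_infCluster G x).compl.union
          ((measurableSet_infCluster G y).compl.union (measurableSet_reach G x y)))
  · ext ω
    simp only [hasUnique, Set.mem_ofPred_eq, Set.mem_inter_iff, Set.mem_iUnion, Set.mem_iInter,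
      Set.mem_union, Set.mem_compl_iff]
    refine and_congr_right fun _ => forall₂_congr fun x y => ?_
    tauto

theorem infCluster_iso (γ : G ≃g G) (ω : Set (Sym2 V)) (u : V) :
    InfCluster G (Sym2.map γ ⁻¹' ω) u → InfCluster G ω (γ u) := by
  intro h
  refine (h.image γ.injective.injOn).mono ?_
  rintro _ ⟨y, hy, rfl⟩
  let f : openGraph G (Sym2.map γ ⁻¹' ω) →g openGraph G ω :=
    { toFun := γ
      map_rel' := fun {a b} hab => by
        simp only [openGraph, SimpleGraph.inf_adj, fromEdgeSet_adj, Set.mem_preimage,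
          Sym2.map_mk] at hab ⊢
        exact ⟨γ.map_adj_iff.2 hab.1, hab.2.1, γ.injective.ne hab.2.2⟩ }
  exact Reachable.map f hy

/-- some orbit is infinite -/
theorem exists_infinite_orbit [Infinite V] (hqt : QuasiTransitive G) :
    ∃ f : V, (Set.range fun γ : G ≃g G => γ f).Infinite := by
  obtain ⟨F, hF⟩ := hqt
  by_contra h
  push Not at h
  refine Set.infinite_univ (α := V) ((F.finite_toSet.biUnion fun f _ => h f).subset fun v _ => ?_)
  obtain ⟨u, hu, γ, rfl⟩ := hF v
  exact Set.mem_biUnion hu ⟨γ, rfl⟩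

theorem exists_far [Infinite V] (hqt : QuasiTransitive G) (hc : G.Connected) (K Bad : Finset V) :
    ∃ γ : G ≃g G, ∀ v ∈ K, γ v ∉ Bad := by
  obtain ⟨f, hf⟩ := exists_infinite_orbit G hqt
  obtain ⟨_, ⟨γ, rfl⟩, hγ⟩ :=
    hf.exists_notMem_finset (Bad.biUnion fun b => K.biUnion fun v => ballF G b (hc v f).some.length)
  refine ⟨γ, fun v hv hb => hγ (Finset.mem_biUnion.2 ⟨γ v, hb, Finset.mem_biUnion.2 ⟨v, hv, ?_⟩⟩)⟩
  have := mem_ballF_of_walk G ((hc v f).some.map γ.toHom)
  rwa [Walk.length_map] at this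

/-- square summable connections forbid a unique infinite cluster -/
theorem not_unique [Infinite V] (hc : G.Connected) (hqt : QuasiTransitive G) (p : unitInterval)
    {η : ℝ} (hη : ∀ L v, eta G L p v ≤ η) : perc G p (hasUnique G) ≠ 1 := by
  intro h1
  have := countable_of_connected G hc
  obtain ⟨o⟩ := hc.nonempty
  set μ := perc G p with hμ
  set meets : Finset V → Set (Set (Sym2 V)) := fun K => ⋃ u ∈ K, {ω | InfCluster G ω u} with hmeets
  have hmm : ∀ K, MeasurableSet (meets K) := fun K =>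
    Finset.measurableSet_biUnion K fun u _ => measurableSet_infCluster G u
  have hmono : Monotone fun n => meets (ballF G o n) := fun n m hnm =>
    Set.biUnion_subset_biUnion_left (Finset.coe_subset.2 (ballF_mono G o hnm))
  have hsup : (1 : ENNReal) ≤ ⨆ n, μ (meets (ballF G o n)) := by
    rw [← hmono.measure_iUnion, ← h1]
    refine measure_mono fun ω hω => ?_
    obtain ⟨x, hx⟩ := hω.1
    obtain ⟨q⟩ := hc o x
    exact Set.mem_iUnion.2 ⟨q.length, Set.mem_biUnion (mem_ballF_of_walk G q) hx⟩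
  obtain ⟨n, hn⟩ := lt_iSup_iff.1
    ((show ENNReal.ofReal (3 / 4) < 1 by
      rw [← ENNReal.ofReal_one, ENNReal.ofReal_lt_ofReal_iff one_pos]; norm_num).trans_le hsup)
  set K := ballF G o n with hK
  set ε : ℝ := 1 / (4 * ((K.card : ℝ) ^ 2 + 1)) with hε
  have hεpos : 0 < ε := by positivity
  set Bad := K.biUnion fun u => (finite_connected G p hη hεpos u).toFinset with hBad
  obtain ⟨γ, hγ⟩ := exists_far G hqt hc K Bad
  have hreach : ∀ u ∈ K, ∀ v ∈ K, μ.real {ω | (openGraph G ω).Reachable u (γ v)} ≤ ε := by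
    intro u hu v hv
    have h : ¬ ENNReal.ofReal ε ≤ μ {ω | (openGraph G ω).Reachable u (γ v)} := fun h =>
      hγ v hv (Finset.mem_biUnion.2 ⟨u, hu, (finite_connected G p hη hεpos u).mem_toFinset.2 h⟩)
    exact (ENNReal.toReal_le_toReal (measure_ne_top _ _) ENNReal.ofReal_ne_top).2 (le_of_not_ge h)
      |>.trans (le_of_eq (ENNReal.toReal_ofReal hεpos.le))
  set A := meets K with hA
  set A' := meets (K.image γ) with hA'
  have hAA' : μ A ≤ μ A' := by
    have hmap : Measurable fun ω : Set (Sym2 V) => Sym2.map γ ⁻¹' ω :=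
      measurable_set_iff.2 fun a => measurable_set_mem (Sym2.map γ a)
    calc μ A = Measure.map (fun ω => Sym2.map γ ⁻¹' ω) μ A := by rw [hμ, perc_map_iso]
      _ = μ ((fun ω => Sym2.map γ ⁻¹' ω) ⁻¹' A) := Measure.map_apply hmap (hmm K)
      _ ≤ μ A' := by
          refine measure_mono fun ω hω => ?_
          obtain ⟨u, hu, hinf⟩ := Set.mem_iUnion₂.1 hω
          exact Set.mem_iUnion₂.2 ⟨γ u, Finset.mem_image_of_mem _ hu, infCluster_iso G γ ω u hinf⟩
  have hA34 : 3 / 4 ≤ μ.real A :=
    (le_of_eq (ENNReal.toReal_ofReal (by norm_num)).symm).trans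
      ((ENNReal.toReal_le_toReal ENNReal.ofReal_ne_top (measure_ne_top _ _)).2 hn.le)
  have hA'34 : 3 / 4 ≤ μ.real A' :=
    hA34.trans ((ENNReal.toReal_le_toReal (measure_ne_top _ _) (measure_ne_top _ _)).2 hAA')
  set R := ⋃ z ∈ K ×ˢ K, {ω | (openGraph G ω).Reachable z.1 (γ z.2)} with hR
  have hU : μ.real (hasUnique G) = 1 := by rw [measureReal_def, h1, ENNReal.toReal_one]
  have hsub : (Set.univ : Set (Set (Sym2 V))) ⊆ Aᶜ ∪ A'ᶜ ∪ (hasUnique G)ᶜ ∪ R := by
    intro ω _
    by_cases h1 : ω ∈ A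
    · by_cases h2 : ω ∈ A'
      · by_cases h3 : ω ∈ hasUnique G
        · obtain ⟨u, hu, hinf⟩ := Set.mem_iUnion₂.1 h1
          obtain ⟨w, hw, hinf'⟩ := Set.mem_iUnion₂.1 h2
          obtain ⟨v, hv, rfl⟩ := Finset.mem_image.1 hw
          exact .inr (Set.mem_iUnion₂.2
            ⟨(u, v), Finset.mem_product.2 ⟨hu, hv⟩, h3.2 u (γ v) hinf hinf'⟩)
        · exact .inl (.inr h3)
      · exact .inl (.inl (.inr h2))
    · exact .inl (.inl (.inl h1))
  have hRle : μ.real R ≤ (K.card : ℝ) ^ 2 * ε := by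
    refine (measureReal_biUnion_finset_le _ _).trans ((Finset.sum_le_sum fun z hz =>
      hreach z.1 (Finset.mem_product.1 hz).1 z.2 (Finset.mem_product.1 hz).2).trans (le_of_eq ?_))
    rw [Finset.sum_const, Finset.card_product, nsmul_eq_mul]
    push_cast
    ring
  have hε4 : (K.card : ℝ) ^ 2 * ε ≤ 1 / 4 := by
    rw [hε, mul_one_div, div_le_iff₀ (by positivity)]
    linarith
  have htot : 1 ≤ μ.real Aᶜ + μ.real A'ᶜ + μ.real (hasUnique G)ᶜ + μ.real R := by
    calc (1 : ℝ) = μ.real Set.univ := probReal_univ.symm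
      _ ≤ μ.real (Aᶜ ∪ A'ᶜ ∪ (hasUnique G)ᶜ ∪ R) := measureReal_mono hsub (measure_ne_top _ _)
      _ ≤ _ := (measureReal_union_le _ _).trans (add_le_add ((measureReal_union_le _ _).trans
          (add_le_add (measureReal_union_le _ _) le_rfl)) le_rfl)
  rw [probReal_compl_eq_one_sub (hmm K), probReal_compl_eq_one_sub (hmm (K.image γ)),
    probReal_compl_eq_one_sub (measurableSet_hasUnique G), hU] at htot
  linarith

theorem perc_one_unique [Infinite V] (hc : G.Connected) :
    perc G 1 (hasUnique G) = 1 := by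
  have := countable_of_connected G hc
  have hopen : openGraph G G.edgeSet = G := by
    rw [openGraph, fromEdgeSet_edgeSet, inf_idem]
  have hinf : ∀ x, InfCluster G G.edgeSet x := fun x => by
    simp only [InfCluster, hopen]
    rw [show {y | G.Reachable x y} = Set.univ from Set.eq_univ_of_forall fun y => hc x y]
    exact Set.infinite_univ
  rw [perc, setBernoulli_one, Measure.dirac_apply' _ (measurableSet_hasUnique G),
    Set.indicator_of_mem]
  · rfl
  · obtain ⟨o⟩ := hc.nonempty
    exact ⟨⟨o, hinf o⟩, fun x y _ _ => by rw [hopen]; exact hc x y⟩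

/-- small return sums give `p_c < p_u` -/
theorem pc_lt_pu_of_eta [Infinite V] (hc : G.Connected) (hqt : QuasiTransitive G) {D : ℕ}
    (hD : ∀ v, G.degree v = D) {lam : ℝ} (hlam : 1 < lam)
    (hη : ∀ L v, eta G L (lam / D) v ≤ (lam - 1) / 6) : pc G < pu G := by
  obtain ⟨o⟩ := hc.nonempty
  have hDpos : 0 < D := by
    obtain ⟨x, hx⟩ := exists_ne o
    obtain ⟨y, hy⟩ := ((hc o x).some.exists_eq_cons_of_ne hx.symm)
    rw [← hD o]
    exact (G.degree_pos_iff_exists_adj o).2 ⟨y, hy.choose⟩
  have hDr : (0 : ℝ) < D := by exact_mod_cast hDpos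
  have hlD : lam ≤ D := by
    have h2 := hη 2 o
    have hw1 : wk G 1 o o = 0 := by simp [wk_succ, wk_zero]
    have hw2 : wk G 2 o o = D := by
      rw [show (2 : ℕ) = 1 + 1 from rfl, wk_succ, ← hD o, ← G.card_neighborFinset_eq_degree,
        Finset.cast_card]
      refine Finset.sum_congr rfl fun x hx => ?_
      simp [wk_succ, wk_zero, ((G.mem_neighborFinset o x).1 hx).symm]
    simp only [eta, Finset.sum_range_succ, Finset.sum_range_zero, hw1, hw2] at h2
    field_simp at h2
    push_cast at h2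
    nlinarith
  set p₀ : ℝ := (1 + (lam - 1) / 2) / D with hp₀
  set q₁ : ℝ := (1 + 3 * (lam - 1) / 4) / D with hq₁
  set q₂ : ℝ := lam / D with hq₂
  have hp₀pos : 0 ≤ p₀ := div_nonneg (by linarith) hDr.le
  have h01 : p₀ < q₁ := div_lt_div_of_pos_right (by linarith) hDr
  have h12 : q₁ < q₂ := div_lt_div_of_pos_right (by linarith) hDr
  have h21 : q₂ ≤ 1 := (div_le_one hDr).2 hlD
  have hpc : pc G ≤ q₁ := by
    refine csInf_le ⟨0, ?_⟩ ⟨⟨q₁, by linarith, by linarith⟩, ?_, rfl⟩
    · rintro _ ⟨p, _, rfl⟩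
      exact p.2.1
    · refine perc_infinite_pos G hc o _ (c := (q₁ - p₀) / (1 + (q₁ - p₀)))
        (div_pos (by linarith) (by linarith)) fun B hB => ?_
      refine theta_ge G hB hp₀pos h01.le (by linarith) fun p hp hpq S hS => ?_
      refine phi_ge_one G hS (fun v => (hD v).ge) (hp₀pos.trans hp) (by linarith)
        (η := (lam - 1) / 6) (fun L v => (eta_mono G (hp₀pos.trans hp) (by linarith) L v).trans
          (hη L v)) ?_
      have : 1 + (lam - 1) / 2 ≤ p * D := by rwa [hp₀, div_le_iff₀ hDr] at hp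
      linarith
  have hpu : q₂ ≤ pu G := by
    refine le_csInf ⟨_, ⟨1, perc_one_unique G hc, rfl⟩⟩ ?_
    rintro _ ⟨p, hp, rfl⟩
    by_contra hlt
    exact not_unique G hc hqt p (η := (lam - 1) / 6)
      (fun L v => (eta_mono G p.2.1 (le_of_not_ge hlt) L v).trans (hη L v)) hp
  linarith

theorem edgeBdry_eq (A : Finset V) : edgeBdry G A = edgeBoundary G A := by
  refine Finset.sum_congr rfl fun x _ => ?_
  rw [← Set.ncard_coe_finset]
  refine congrArg Set.ncard (Set.ext fun y => ?_)
  simp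

theorem returns_eq (n : ℕ) (v : V) : (returns G n v : ℝ) = wk G n v v := by
  rw [returns, ← card_finsetWalkLength, ← coe_finsetWalkLength_eq, Set.ncard_coe_finset]

end

/-- both criteria, stated without auxiliary notions -/
theorem nonuniqueness_large_degree.{u} :
    (∀ δ : ℝ, 0 < δ → ∃ D₀ : ℕ, ∀ (V : Type u) [Infinite V] (G : SimpleGraph V)
      [G.LocallyFinite] (D : ℕ), D₀ ≤ D → G.Connected → QuasiTransitive G →
      (∀ v, G.degree v = D) →
      (∀ A : Finset V, A.Nonempty → δ * D * A.card ≤ edgeBoundary G A) → pc G < pu G) ∧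
    (∀ (V : Type u) [Infinite V] (G : SimpleGraph V) [G.LocallyFinite] (D : ℕ) (lam : ℝ),
      G.Connected → QuasiTransitive G → (∀ v, G.degree v = D) → 1 < lam →
      (∀ (N : ℕ) (v : V), (∑ n ∈ Finset.range N,
        (n : ℝ) * (lam / D) ^ n * (returns G n v : ℝ)) ≤ (lam - 1) / 6) → pc G < pu G) := by
  classical
  refine ⟨fun δ hδ => ?_, fun V _ G _ D lam hc hqt hD hlam h => ?_⟩
  · obtain ⟨D₀, lam, hlam, h⟩ := exists_degree hδ
    refine ⟨D₀, fun V _ G _ D hD₀ hc hqt hD hb => ?_⟩
    exact pc_lt_pu_of_eta G hc hqt hD hlam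
      (h V G D hD₀ hD fun A hA => (edgeBdry_eq G A).symm ▸ hb A hA)
  · refine pc_lt_pu_of_eta G hc hqt hD hlam fun L v => ?_
    have := h (L + 1) v
    simpa only [returns_eq, eta] using this

end Vale.Agent.P165
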