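import Vale.Agent.P165.Defs
import Vale.Agent.P165.DCT
import Vale.Agent.P165.Cheeger

/-!
Transfer between the product measure and the finite computations (P165).
-/

namespace Vale.Agent.P165

noncomputable section

open Finset SimpleGraph MeasureTheory ProbabilityTheory

set_option linter.unusedSectionVars false

variable {V : Type*} [DecidableEq V] (G : SimpleGraph V) [G.LocallyFinite]

open Classical in
/-- the configuration seen on a finite edge set -/
def restr (E : Finset (Sym2 V)) (ω : Set (Sym2 V)) : Finset (Sym2 V) := E.filter fun e => e ∈ ω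

theorem coe_restr_subset (E : Finset (Sym2 V)) (ω : Set (Sym2 V)) :
    ((restr E ω : Finset (Sym2 V)) : Set (Sym2 V)) ⊆ (E : Set (Sym2 V)) ∩ ω := fun e he => by
  simp only [restr, Finset.coe_filter] at he
  exact ⟨he.1, he.2⟩

theorem measurableSet_memEdge (e : Sym2 V) : MeasurableSet {ω : Set (Sym2 V) | e ∈ ω} := by
  rw [measurableSet_setOfPred]
  fun_prop

theorem measurableSet_open (T : Finset (Sym2 V)) :
    MeasurableSet {ω : Set (Sym2 V) | ∀ e ∈ T, e ∈ ω} := by
  rw [show {ω : Set (Sym2 V) | ∀ e ∈ T, e ∈ ω} = ⋂ e ∈ T, {ω | e ∈ ω} by ext; simp]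
  exact Finset.measurableSet_biInter T fun e _ => measurableSet_memEdge e

theorem measurableSet_atom (E A : Finset (Sym2 V)) :
    MeasurableSet {ω : Set (Sym2 V) | ∀ e ∈ E, (e ∈ ω ↔ e ∈ A)} := by
  rw [show {ω : Set (Sym2 V) | ∀ e ∈ E, (e ∈ ω ↔ e ∈ A)} = ⋂ e ∈ E, {ω | e ∈ ω ↔ e ∈ A} by
    ext; simp]
  refine Finset.measurableSet_biInter E fun e _ => ?_
  by_cases h : e ∈ A
  · simp only [h, iff_true]
    exact measurableSet_memEdge e
  · simp only [h, iff_false]
    exact (measurableSet_memEdge e).compl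

theorem perc_atom {E A : Finset (Sym2 V)} (hE : (E : Set (Sym2 V)) ⊆ G.edgeSet) (hA : A ⊆ E)
    (p : unitInterval) :
    perc G p {ω | ∀ e ∈ E, (e ∈ ω ↔ e ∈ A)} = ENNReal.ofReal (wt E p A) := by
  classical
  rw [perc, setBernoulli_apply']
  have : ((fun f : Sym2 V → Prop => {i | f i}) ⁻¹' {ω | ∀ e ∈ E, (e ∈ ω ↔ e ∈ A)}) =
      Set.pi (E : Set (Sym2 V)) fun i => {P : Prop | P ↔ i ∈ A} := by
    ext f
    simp
  rw [this, Measure.infinitePi_pi _ fun i _ => MeasurableSet.of_discrete]
  rw [Finset.prod_congr rfl (g := fun i =>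
    if i ∈ A then ENNReal.ofReal p else ENNReal.ofReal (1 - p)) fun i hi => ?_]
  · rw [Finset.prod_ite, Finset.prod_const, Finset.prod_const, Finset.filter_mem_eq_inter,
      Finset.inter_eq_right.2 hA,
      show E.filter (fun i => i ∉ A) = E \ A from (Finset.sdiff_eq_filter E A).symm,
      Finset.card_sdiff_of_subset hA, ← ENNReal.ofReal_pow p.2.1,
      ← ENNReal.ofReal_pow (by linarith [p.2.2]), ← ENNReal.ofReal_mul (pow_nonneg p.2.1 _)]
    rfl
  · have h1 : (unitInterval.toNNReal p : ENNReal) = ENNReal.ofReal p := by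
      rw [ENNReal.ofReal, Real.toNNReal_of_nonneg p.2.1]; rfl
    have h2 : (unitInterval.toNNReal (unitInterval.symm p) : ENNReal) =
        ENNReal.ofReal (1 - p) := by
      rw [ENNReal.ofReal, Real.toNNReal_of_nonneg (by linarith [p.2.2])]; rfl
    have hu : (i ∈ G.edgeSet) = True := eq_true (hE hi)
    by_cases hiA : i ∈ A <;>
      simp [hu, hiA, h1, h2, Set.indicator, ENNReal.smul_def]

/-- finite-dimensional events -/
theorem perc_cyl {E : Finset (Sym2 V)} (hE : (E : Set (Sym2 V)) ⊆ G.edgeSet) (p : unitInterval)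
    (Q : Finset (Sym2 V) → Prop) :
    MeasurableSet {ω : Set (Sym2 V) | Q (restr E ω)} ∧
      perc G p {ω | Q (restr E ω)} = ENNReal.ofReal (pr E p Q) := by
  classical
  have heq : {ω : Set (Sym2 V) | Q (restr E ω)} =
      ⋃ A ∈ E.powerset.filter Q, {ω | ∀ e ∈ E, (e ∈ ω ↔ e ∈ A)} := by
    ext ω
    simp only [Set.mem_ofPred_eq, Set.mem_iUnion, Finset.mem_filter, Finset.mem_powerset]
    constructor
    · intro h
      exact ⟨restr E ω, ⟨fun e he => (Finset.mem_filter.1 he).1, h⟩,
        fun e he => by simp [restr, he]⟩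
    · rintro ⟨A, ⟨hA, hQ⟩, h⟩
      convert hQ
      ext e
      simp only [restr, Finset.mem_filter]
      exact ⟨fun he => (h e he.1).1 he.2, fun he => ⟨hA he, (h e (hA he)).2 he⟩⟩
  refine ⟨heq ▸ Finset.measurableSet_biUnion _ fun A _ => measurableSet_atom E A, ?_⟩
  rw [heq, measure_biUnion_finset _ fun A _ => measurableSet_atom E A]
  · rw [Finset.sum_congr rfl fun A hA =>
      perc_atom G hE (Finset.mem_powerset.1 (Finset.mem_filter.1 hA).1) p,
      ← ENNReal.ofReal_sum_of_nonneg fun A _ => wt_nonneg E p.2.1 p.2.2 A]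
    refine congrArg _ ?_
    rw [pr, Finset.sum_filter]
    refine Finset.sum_congr rfl fun A _ => ?_
    by_cases h : Q A <;> simp [ind, h]
  · intro A hA B hB hne
    simp only [Function.onFun]
    rw [Set.disjoint_left]
    intro ω hωA hωB
    refine hne (Finset.ext fun e => ?_)
    have hA' := Finset.mem_powerset.1 (Finset.mem_filter.1 hA).1
    have hB' := Finset.mem_powerset.1 (Finset.mem_filter.1 hB).1
    exact ⟨fun he => (hωB e (hA' he)).1 ((hωA e (hA' he)).2 he),
      fun he => (hωA e (hB' he)).1 ((hωB e (hB' he)).2 he)⟩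

theorem perc_open {T : Finset (Sym2 V)} (hT : (T : Set (Sym2 V)) ⊆ G.edgeSet) (p : unitInterval) :
    perc G p {ω | ∀ e ∈ T, e ∈ ω} = ENNReal.ofReal ((p : ℝ) ^ T.card) := by
  classical
  rw [show {ω : Set (Sym2 V) | ∀ e ∈ T, e ∈ ω} = {ω | T ⊆ restr T ω} from ?_,
    (perc_cyl G hT p _).2, pr_all_open]
  ext ω
  exact ⟨fun h e he => Finset.mem_filter.2 ⟨he, h e he⟩,
    fun h e he => (Finset.mem_filter.1 (h he)).2⟩

instance (p : unitInterval) : IsProbabilityMeasure (perc G p) := by
  rw [perc]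
  infer_instance

theorem openGraph_eq (ω : Set (Sym2 V)) :
    openGraph G ω = fromEdgeSet (ω ∩ G.edgeSet) := by
  ext x y
  simp only [openGraph, SimpleGraph.inf_adj, fromEdgeSet_adj, Set.mem_inter_iff, mem_edgeSet]
  exact ⟨fun h => ⟨⟨h.2.1, h.1⟩, h.2.2⟩, fun h => ⟨h.1.2, h.1.1, h.2⟩⟩

theorem reach_iff_conn (ω : Set (Sym2 V)) (x y : V) :
    (openGraph G ω).Reachable x y ↔ Conn (ω ∩ G.edgeSet) x y := by
  rw [openGraph_eq]
  rfl

/-- connection by at most `L` open edges -/
def reachLe (L : ℕ) (x y : V) : Set (Set (Sym2 V)) :=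
  ⋃ q ∈ pths G L x y, {ω | ∀ e ∈ q.edges.toFinset, e ∈ ω}

theorem reach_eq_iUnion (x y : V) :
    {ω | (openGraph G ω).Reachable x y} = ⋃ L, reachLe G L x y := by
  ext ω
  simp only [Set.mem_ofPred_eq, Set.mem_iUnion, reachLe, reach_iff_conn]
  constructor
  · intro h
    obtain ⟨q, hq, hqω⟩ := h.exists_path G Set.inter_subset_right
    exact ⟨q.length, q, (mem_pths G).2 ⟨le_rfl, hq⟩, fun e he => (hqω e (List.mem_toFinset.1 he)).1⟩
  · rintro ⟨L, q, -, hq⟩
    exact conn_of_walk G q fun e he =>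
      ⟨hq e (List.mem_toFinset.2 he), q.edges_subset_edgeSet he⟩

theorem measurableSet_reach (x y : V) : MeasurableSet {ω | (openGraph G ω).Reachable x y} := by
  rw [reach_eq_iUnion]
  exact MeasurableSet.iUnion fun L =>
    Finset.measurableSet_biUnion _ fun q _ => measurableSet_open _

theorem perc_reachLe (p : unitInterval) (L : ℕ) (x y : V) :
    perc G p (reachLe G L x y) ≤ ENNReal.ofReal (gw G L p x y) := by
  refine (measure_biUnion_finset_le _ _).trans ?_
  rw [Finset.sum_congr rfl fun q hq => by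
    rw [perc_open G (fun e he => q.edges_subset_edgeSet (List.mem_toFinset.1 he)) p,
      card_edges G q ((mem_pths G).1 hq).2],
    ← ENNReal.ofReal_sum_of_nonneg fun q _ => pow_nonneg p.2.1 _]
  exact ENNReal.ofReal_le_ofReal (sum_pths_le G p.2.1 L x y)

theorem reachLe_mono (x y : V) : Monotone fun L => reachLe G L x y := fun L L' h =>
  Set.biUnion_subset_biUnion_left fun _ hq =>
    (mem_pths G).2 ⟨((mem_pths G).1 hq).1.trans h, ((mem_pths G).1 hq).2⟩

theorem gw_mono {p : ℝ} (hp : 0 ≤ p) {L L' : ℕ} (h : L ≤ L') (x y : V) :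
    gw G L p x y ≤ gw G L' p x y :=
  Finset.sum_le_sum_of_subset_of_nonneg (Finset.range_subset_range.2 (by omega))
    fun n _ _ => mul_nonneg (by positivity) (wk_nonneg G n x y)

/-- far vertices are rarely connected -/
theorem finite_connected (p : unitInterval) {η : ℝ} (hη : ∀ L v, eta G L p v ≤ η) {ε : ℝ}
    (hε : 0 < ε) (x : V) :
    {y | ENNReal.ofReal ε ≤ perc G p {ω | (openGraph G ω).Reachable x y}}.Finite := by
  by_contra hinf
  obtain ⟨T, hT, hcard⟩ :=
    (Set.not_finite.1 hinf).exists_subset_card_eq (⌈(1 + 2 * η) / (ε / 2) ^ 2⌉₊ + 1)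
  have hL : ∀ y ∈ T, ∃ L, ε / 2 < gw G L p x y := by
    intro y hy
    have h := hT hy
    simp only [Set.mem_ofPred_eq, reach_eq_iUnion,
      (reachLe_mono G x y).measure_iUnion] at h
    have hlt : ENNReal.ofReal (ε / 2) < ⨆ L, perc G p (reachLe G L x y) :=
      lt_of_lt_of_le ((ENNReal.ofReal_lt_ofReal_iff hε).2 (by linarith)) h
    obtain ⟨L, hL⟩ := lt_iSup_iff.1 hlt
    refine ⟨L, ?_⟩
    have := hL.trans_le (perc_reachLe G p L x y)
    exact (ENNReal.ofReal_lt_ofReal_iff_of_nonneg (by linarith)).1 this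
  choose! L hL using hL
  have hbig : (T.card : ℝ) * (ε / 2) ^ 2 ≤ 1 + 2 * η := by
    calc (T.card : ℝ) * (ε / 2) ^ 2 = ∑ y ∈ T, (ε / 2) ^ 2 := by simp
      _ ≤ ∑ y ∈ T, gw G (T.sup L) p x y ^ 2 := Finset.sum_le_sum fun y hy =>
          pow_le_pow_left₀ (by linarith)
            ((hL y hy).le.trans (gw_mono G p.2.1 (Finset.le_sup hy) x y)) 2
      _ ≤ 1 + 2 * eta G (2 * T.sup L) p x := gw_sq_sum_le G p.2.1 _ x T
      _ ≤ _ := by linarith [hη (2 * T.sup L) x]
  have h1 := Nat.le_ceil ((1 + 2 * η) / (ε / 2) ^ 2)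
  rw [hcard] at hbig
  push_cast at hbig
  rw [div_le_iff₀ (by positivity)] at h1
  nlinarith [sq_pos_of_pos (half_pos hε)]

theorem ballF_mono (v : V) : Monotone (ballF G v) :=
  monotone_nat_of_le_succ fun _ => subset_thick G _

theorem mem_ballF_of_walk {v w : V} (q : G.Walk v w) : w ∈ ballF G v q.length := by
  suffices ∀ (w u : V) (q : G.Walk u w) (n : ℕ), u ∈ ballF G v n → w ∈ ballF G v (n + q.length) by
    simpa using this w v q 0 (Finset.mem_singleton_self v)
  intro w u q
  induction q with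
  | nil => exact fun n h => h
  | @cons a b c hab r ih =>
    intro n h
    rw [Walk.length_cons, show n + (r.length + 1) = (n + 1) + r.length by omega]
    exact ih (n + 1) (nb_subset_thick G h ((G.mem_neighborFinset a b).2 hab))

theorem countable_of_connected (hc : G.Connected) : Countable V := by
  obtain ⟨o⟩ := hc.nonempty
  refine Set.countable_univ_iff.1 ((Set.countable_iUnion fun n : ℕ =>
    (ballF G o n).countable_toSet).mono fun v _ => ?_)
  obtain ⟨q⟩ := hc o v
  exact Set.mem_iUnion.2 ⟨q.length, mem_ballF_of_walk G q⟩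

/-- some vertex's cluster is infinite with probability bounded below -/
theorem perc_infinite_pos (hc : G.Connected) (o : V) (p : unitInterval) {c : ℝ} (hc0 : 0 < c)
    (h : ∀ B : Finset V, o ∈ B → c ≤ theta G B p o) : 0 < perc G p (hasInfinite G) := by
  set E : ℕ → Set (Set (Sym2 V)) := fun R =>
    {ω | Out (ballF G o R) ((restr (EB G (ballF G o R)) ω : Finset (Sym2 V)) : Set (Sym2 V)) o}
    with hE
  have hm : ∀ R, MeasurableSet (E R) := fun R =>
    (perc_cyl G (EB_subset G (ballF G o R)) p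
      (fun A => Out (ballF G o R) (A : Set (Sym2 V)) o)).1
  have hμ : ∀ R, ENNReal.ofReal c ≤ perc G p (E R) := fun R => by
    rw [show perc G p (E R) = ENNReal.ofReal (theta G (ballF G o R) p o) from
      (perc_cyl G (EB_subset G (ballF G o R)) p
        (fun A => Out (ballF G o R) (A : Set (Sym2 V)) o)).2]
    exact ENNReal.ofReal_le_ofReal
      (h _ (ballF_mono G o (Nat.zero_le R) (Finset.mem_singleton_self o)))
  have hanti : Antitone fun n => ⋃ k, E (n + k) := fun n m hnm =>
    Set.iUnion_subset fun k => Set.subset_iUnion_of_subset (m - n + k)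
      (by rw [show n + (m - n + k) = m + k by omega])
  have hlim : ENNReal.ofReal c ≤ perc G p (⋂ n, ⋃ k, E (n + k)) := by
    rw [hanti.measure_iInter (fun n => (MeasurableSet.iUnion fun k => hm (n + k)).nullMeasurableSet)
      ⟨0, measure_ne_top _ _⟩]
    exact le_iInf fun n => (hμ n).trans (measure_mono (Set.subset_iUnion_of_subset 0 subset_rfl))
  refine lt_of_lt_of_le (ENNReal.ofReal_pos.2 hc0) (hlim.trans (measure_mono fun ω hω => ⟨o, ?_⟩))
  intro hfin
  choose R hR using fun v => (⟨_, mem_ballF_of_walk G (hc o v).some⟩ : ∃ n, v ∈ ballF G o n)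
  obtain ⟨k, z, hz, hconn⟩ := Set.mem_iUnion.1 (Set.mem_iInter.1 hω (hfin.toFinset.sup R))
  have hsub : ∀ n, ((restr (EB G (ballF G o n)) ω : Finset (Sym2 V)) : Set (Sym2 V)) ⊆
      ω ∩ G.edgeSet := fun n e he =>
    ⟨(coe_restr_subset _ _ he).2, EB_subset G _ (coe_restr_subset _ _ he).1⟩
  have hzC : z ∈ hfin.toFinset :=
    hfin.mem_toFinset.2 ((reach_iff_conn G ω o z).2 (hconn.mono (hsub _)))
  exact hz (ballF_mono G o ((Finset.le_sup hzC).trans (Nat.le_add_right _ _)) (hR z))

/-- automorphisms preserve the measure -/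
theorem perc_map_iso (γ : G ≃g G) (p : unitInterval) :
    (perc G p).map (fun ω => Sym2.map γ ⁻¹' ω) = perc G p := by
  classical
  let e : Sym2 V ≃ Sym2 V :=
    { toFun := Sym2.map γ
      invFun := Sym2.map γ.symm
      left_inv := fun z => by rw [Sym2.map_map]; simp
      right_inv := fun z => by rw [Sym2.map_map]; simp }
  have hmeas : Measurable fun ω : Set (Sym2 V) => Sym2.map γ ⁻¹' ω :=
    measurable_set_iff.2 fun a => measurable_set_mem (Sym2.map γ a)
  rw [perc, setBernoulli_eq_map, Measure.map_map hmeas (by fun_prop)]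
  set μ : Sym2 V → Measure Prop := fun i => unitInterval.toNNReal p • Measure.dirac (i ∈ G.edgeSet) +
    unitInterval.toNNReal (unitInterval.symm p) • Measure.dirac False with hμ
  have hinv : ∀ i, μ (e.symm i) = μ i := fun i => by
    have : (Sym2.map γ.symm i ∈ G.edgeSet) = (i ∈ G.edgeSet) := by
      induction i using Sym2.ind with
      | h a b => simp only [Sym2.map_mk, mem_edgeSet, γ.symm.map_adj_iff]
    show unitInterval.toNNReal p • Measure.dirac (Sym2.map γ.symm i ∈ G.edgeSet) + _ = _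
    rw [this]
  have key := Measure.infinitePi_map_piCongrLeft (μ := μ) e.symm
  simp only [hinv] at key
  conv_rhs => rw [← key]
  rw [Measure.map_map (by fun_prop) (by fun_prop)]
  refine congrArg (fun f => Measure.map f (Measure.infinitePi μ)) ?_
  funext f
  ext z
  simp only [Function.comp_apply, Set.mem_preimage, Set.mem_ofPred_eq,
    MeasurableEquiv.coe_piCongrLeft, Equiv.piCongrLeft_apply_eq_cast, cast_eq]
  rfl

end

end Vale.Agent.P165
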