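import Vale.Agent.P165.Conn

/-!
The boundary sum `phi` of every finite vertex set is at least one when the walk return sums are
small (P165).
-/

namespace Vale.Agent.P165

noncomputable section

open Finset SimpleGraph

set_option linter.unusedSectionVars false

variable {V : Type*} [DecidableEq V] (G : SimpleGraph V) [G.LocallyFinite]

/-- expected number of open edges leaving `S` from the cluster of `o` inside `S` -/
def phi (S : Finset V) (p : ℝ) (o : V) : ℝ :=
  p * ∑ x ∈ S, tau G S p o x * ((G.neighborFinset x \ S).card : ℝ)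

/-- the event that `y` is reached last through the edge from `x` -/
def lastEdge (o y x : V) (A : Finset (Sym2 V)) : Prop :=
  s(x, y) ∈ A ∧ Conn ((A.filter fun e => y ∉ e : Finset (Sym2 V)) : Set (Sym2 V)) o x

theorem off_mono (o x y : V) : ∀ A B : Finset (Sym2 V), A ⊆ B →
    Conn ((A.filter fun e => y ∉ e : Finset (Sym2 V)) : Set (Sym2 V)) o x →
    Conn ((B.filter fun e => y ∉ e : Finset (Sym2 V)) : Set (Sym2 V)) o x :=
  fun _ _ h hc => hc.mono (Finset.coe_subset.2 (Finset.filter_subset_filter _ h))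

theorem filter_sdiff_eq {A T : Finset (Sym2 V)} {y : V} (h : ∀ e ∈ T, y ∈ e) :
    (A \ T).filter (fun e => y ∉ e) = A.filter fun e => y ∉ e := by
  ext e
  simp only [Finset.mem_filter, Finset.mem_sdiff]
  exact ⟨fun h' => ⟨h'.1.1, h'.2⟩, fun h' => ⟨⟨h'.1, fun he => h'.2 (h e he)⟩, h'.2⟩⟩

/-- open edges at `y` together with an event off `y` -/
theorem pr_edges_off {E T : Finset (Sym2 V)} {y : V} (hT : T ⊆ E) (hy : ∀ e ∈ T, y ∈ e) (p : ℝ)
    (R : Finset (Sym2 V) → Prop) :
    pr E p (fun A => T ⊆ A ∧ R (A.filter fun e => y ∉ e)) =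
      p ^ T.card * pr E p (fun A => R (A.filter fun e => y ∉ e)) := by
  have h2 : pr (E \ T) p (fun A => R (A.filter fun e => y ∉ e)) =
      pr E p (fun A => R (A.filter fun e => y ∉ e)) := by
    rw [← pr_marginal (E := E) (E₁ := E \ T) Finset.sdiff_subset p
      fun A => R (A.filter fun e => y ∉ e)]
    refine pr_congr fun A hA => ?_
    rw [← filter_sdiff_eq (A := A) hy, show A ∩ (E \ T) = A \ T from ?_]
    ext e
    simp only [Finset.mem_inter, Finset.mem_sdiff]
    exact ⟨fun h => ⟨h.1, h.2.2⟩, fun h => ⟨h.1, hA h.1, h.2⟩⟩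
  rw [← h2, ← pr_open_and hT p fun A => R (A.filter fun e => y ∉ e)]
  exact pr_congr fun A _ => by rw [filter_sdiff_eq hy]

theorem bonferroni {E : Finset (Sym2 V)} {p : ℝ} (hp : 0 ≤ p) (hp1 : p ≤ 1) (N : Finset V)
    (Q : Finset (Sym2 V) → Prop) (R : V → Finset (Sym2 V) → Prop)
    (h : ∀ A, A ⊆ E → ∀ x ∈ N, R x A → Q A) :
    ∑ x ∈ N, pr E p (R x) - ∑ z ∈ N.offDiag, pr E p (fun A => R z.1 A ∧ R z.2 A) ≤ pr E p Q := by
  rw [show ∑ x ∈ N, pr E p (R x) = ∑ A ∈ E.powerset, ∑ x ∈ N, wt E p A * ind (R x A) from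
      Finset.sum_comm,
    show ∑ z ∈ N.offDiag, pr E p (fun A => R z.1 A ∧ R z.2 A) =
      ∑ A ∈ E.powerset, ∑ z ∈ N.offDiag, wt E p A * ind (R z.1 A ∧ R z.2 A) from Finset.sum_comm,
    ← Finset.sum_sub_distrib]
  refine Finset.sum_le_sum fun A hA => ?_
  rw [← Finset.mul_sum, ← Finset.mul_sum, ← mul_sub]
  refine mul_le_mul_of_nonneg_left ?_ (wt_nonneg E hp hp1 A)
  have hsq : ∑ z ∈ N.offDiag, ind (R z.1 A ∧ R z.2 A) =
      (∑ x ∈ N, ind (R x A)) * (∑ x ∈ N, ind (R x A)) - ∑ x ∈ N, ind (R x A) := by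
    rw [eq_sub_iff_add_eq, Finset.sum_mul_sum, ← Finset.sum_product',
      ← Finset.diag_union_offDiag, Finset.sum_union (Finset.disjoint_diag_offDiag N), add_comm,
      Finset.sum_diag]
    refine congrArg₂ (· + ·) (Finset.sum_congr rfl fun x _ => ?_)
      (Finset.sum_congr rfl fun z _ => ind_and _ _)
    rw [← ind_and, ind_congr (and_self_iff)]
  rw [hsq]
  by_cases hQ : Q A
  · rw [ind_true hQ]
    nlinarith [sq_nonneg (∑ x ∈ N, ind (R x A) - 1)]
  · rw [ind_false hQ, Finset.sum_eq_zero fun x hx =>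
      ind_false fun hR => hQ (h A (Finset.mem_powerset.1 hA) x hx hR)]
    norm_num

/-- the one-step lower bound at a vertex `y` -/
theorem tau_step {S : Finset V} {o y : V} (ho : o ∈ S) (hy : y ∈ S) {p : ℝ} (hp : 0 ≤ p)
    (hp1 : p ≤ 1) :
    p * ∑ x ∈ (G.neighborFinset y ∩ S), tau G S p o x ≤
      tau G S p o y + tau G S p o y * eta G ((ES G S).card + 1) p y +
        ∑ w ∈ S, tau G S p o w *
          ((p * ∑ x ∈ (G.neighborFinset y ∩ S), gw G (ES G S).card p w x) *
           (p * ∑ x ∈ (G.neighborFinset y ∩ S), gw G (ES G S).card p x w)) := by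
  set N := G.neighborFinset y ∩ S with hNdef
  set E := ES G S with hEdef
  have hN : ∀ x ∈ N, x ∈ S ∧ G.Adj x y := fun x hx => by
    rw [hNdef, Finset.mem_inter, mem_neighborFinset] at hx
    exact ⟨hx.2, hx.1.symm⟩
  set h : V → ℝ := fun x => pr E p fun A =>
    Conn ((A.filter fun e => y ∉ e : Finset (Sym2 V)) : Set (Sym2 V)) o x with hhdef
  have hEx : ∀ x ∈ N, pr E p (lastEdge o y x) = p * h x := by
    intro x hx
    have := pr_edges_off (E := E) (T := {s(x, y)}) (y := y)
      (Finset.singleton_subset_iff.2 ((mk_mem_ES G).2 ⟨(hN x hx).1, hy, (hN x hx).2⟩))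
      (fun e he => by rw [Finset.mem_singleton.1 he]; exact Sym2.mem_mk_right x y) p
      fun B => Conn ((B : Finset (Sym2 V)) : Set (Sym2 V)) o x
    rw [Finset.card_singleton, pow_one] at this
    rw [hhdef, ← this]
    exact pr_congr fun A _ => by rw [lastEdge, Finset.singleton_subset_iff]
  have hpair : ∀ z ∈ N.offDiag, pr E p (fun A => lastEdge o y z.1 A ∧ lastEdge o y z.2 A) ≤
      p ^ 2 * ∑ w ∈ S, tau G S p o w *
        (gw G E.card p w z.1 * gw G E.card p z.2 w) := by
    intro z hz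
    obtain ⟨h1, h2, hne⟩ := Finset.mem_offDiag.1 hz
    have hcard : ({s(z.1, y), s(z.2, y)} : Finset (Sym2 V)).card = 2 :=
      Finset.card_pair fun he => hne (Sym2.congr_left.1 he)
    have := pr_edges_off (E := E) (T := {s(z.1, y), s(z.2, y)}) (y := y)
      (Finset.insert_subset ((mk_mem_ES G).2 ⟨(hN _ h1).1, hy, (hN _ h1).2⟩)
        (Finset.singleton_subset_iff.2 ((mk_mem_ES G).2 ⟨(hN _ h2).1, hy, (hN _ h2).2⟩)))
      (fun e he => by
        rw [Finset.mem_insert, Finset.mem_singleton] at he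
        rcases he with rfl | rfl <;> exact Sym2.mem_mk_right _ y) p
      fun B => Conn ((B : Finset (Sym2 V)) : Set (Sym2 V)) o z.1 ∧
        Conn ((B : Finset (Sym2 V)) : Set (Sym2 V)) o z.2
    rw [hcard] at this
    refine le_trans (le_of_eq ?_) (le_trans (le_of_eq this) (mul_le_mul_of_nonneg_left ?_
      (by positivity)))
    · exact pr_congr fun A _ => by
        rw [lastEdge, lastEdge, Finset.insert_subset_iff, Finset.singleton_subset_iff]
        tauto
    · refine le_trans (pr_mono hp hp1 fun A _ hA => ?_) (pr_pair_le G ho hp hp1 z.1 z.2)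
      exact ⟨hA.1.mono (Finset.coe_subset.2 (Finset.filter_subset _ _)),
        hA.2.mono (Finset.coe_subset.2 (Finset.filter_subset _ _))⟩
  have hb := bonferroni (E := E) hp hp1 N (fun A => Conn (A : Set (Sym2 V)) o y)
    (lastEdge o y) fun A _ x hx hR =>
      (hR.2.mono (Finset.coe_subset.2 (Finset.filter_subset _ _))).trans
        (conn_edge G (hN x hx).2 (Finset.mem_coe.2 hR.1))
  rw [Finset.sum_congr rfl hEx] at hb
  have hA : p * ∑ x ∈ N, tau G S p o x ≤
      ∑ x ∈ N, p * h x + tau G S p o y * eta G (E.card + 1) p y := by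
    have h1 : ∀ x ∈ N, tau G S p o x ≤ h x + tau G S p o y * gw G E.card p y x := by
      intro x _
      have e := pr_and_not (E := E) (p := p) (P := fun A => Conn (A : Set (Sym2 V)) o x)
        (Q := fun A => Conn ((A.filter fun e => y ∉ e : Finset (Sym2 V)) : Set (Sym2 V)) o x)
        fun A _ hA => hA.mono (Finset.coe_subset.2 (Finset.filter_subset _ _))
      have h' := pr_through_le G (S := S) (o := o) hp hp1 x y
      rw [← hEdef] at h'
      rw [e] at h'
      simp only [tau, hhdef, ← hEdef] at h' ⊢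
      linarith
    calc p * ∑ x ∈ N, tau G S p o x
        ≤ p * ∑ x ∈ N, (h x + tau G S p o y * gw G E.card p y x) :=
          mul_le_mul_of_nonneg_left (Finset.sum_le_sum h1) hp
      _ = ∑ x ∈ N, p * h x + tau G S p o y * (p * ∑ x ∈ N, gw G E.card p y x) := by
          rw [Finset.sum_add_distrib, mul_add, Finset.mul_sum, ← Finset.mul_sum N _ (tau G S p o y)]
          ring
      _ ≤ _ := add_le_add le_rfl (mul_le_mul_of_nonneg_left
          (gw_loop_le G hp _ y Finset.inter_subset_left) (tau_nonneg G S hp hp1 o y))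
  have hB : ∑ z ∈ N.offDiag, pr E p (fun A => lastEdge o y z.1 A ∧ lastEdge o y z.2 A) ≤
      ∑ w ∈ S, tau G S p o w *
        ((p * ∑ x ∈ N, gw G E.card p w x) * (p * ∑ x ∈ N, gw G E.card p x w)) := by
    refine (Finset.sum_le_sum hpair).trans ?_
    rw [← Finset.mul_sum, Finset.sum_comm, Finset.mul_sum]
    refine Finset.sum_le_sum fun w _ => ?_
    rw [← Finset.mul_sum, mul_left_comm]
    refine mul_le_mul_of_nonneg_left ?_ (tau_nonneg G S hp hp1 o w)
    calc p ^ 2 * ∑ z ∈ N.offDiag, gw G E.card p w z.1 * gw G E.card p z.2 w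
        ≤ p ^ 2 * ∑ z ∈ N ×ˢ N, gw G E.card p w z.1 * gw G E.card p z.2 w := by
          refine mul_le_mul_of_nonneg_left ?_ (by positivity)
          exact Finset.sum_le_sum_of_subset_of_nonneg
            (fun z hz => Finset.mem_product.2
              ⟨(Finset.mem_offDiag.1 hz).1, (Finset.mem_offDiag.1 hz).2.1⟩)
            fun z _ _ => mul_nonneg (gw_nonneg G hp _ _ _) (gw_nonneg G hp _ _ _)
      _ = _ := by rw [Finset.sum_product]; simp only [← Finset.mul_sum, ← Finset.sum_mul]; ring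
  have ht : pr E p (fun A => Conn (A : Set (Sym2 V)) o y) = tau G S p o y := rfl
  linarith

/-- small return sums force `phi ≥ 1` -/
theorem phi_ge_one {S : Finset V} {o : V} (ho : o ∈ S) {D : ℕ} (hD : ∀ v, D ≤ G.degree v)
    {p η : ℝ} (hp : 0 ≤ p) (hp1 : p ≤ 1) (hη : ∀ L v, eta G L p v ≤ η)
    (hc : 3 * η ≤ p * D - 1) : 1 ≤ phi G S p o := by
  set f := fun x => tau G S p o x with hf
  set χ := ∑ x ∈ S, f x with hχ
  have hf0 : ∀ x, 0 ≤ f x := fun x => tau_nonneg G S hp hp1 o x
  have hη0 : 0 ≤ η := (eta_nonneg G hp 0 o).trans (hη 0 o)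
  have hfo : f o = 1 := tau_self G S p o
  have hχ1 : 1 ≤ χ := hfo ▸ Finset.single_le_sum (fun x _ => hf0 x) ho
  set g : V → ℝ := fun y => p * ∑ x ∈ (G.neighborFinset y ∩ S), f x with hg
  have h1 : ∑ y ∈ S.erase o, g y ≤ (χ - 1) + χ * η + χ * η := by
    refine (Finset.sum_le_sum fun y hy => tau_step G ho (Finset.mem_of_mem_erase hy) hp hp1).trans ?_
    rw [Finset.sum_add_distrib, Finset.sum_add_distrib]
    refine add_le_add (add_le_add ?_ ?_) ?_
    · have := Finset.add_sum_erase S f ho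
      rw [hχ, ← this, hfo]
      simp only [hf]
      linarith
    · refine (Finset.sum_le_sum fun y _ =>
        mul_le_mul_of_nonneg_left (hη _ y) (hf0 y)).trans ?_
      rw [← Finset.sum_mul]
      exact mul_le_mul_of_nonneg_right
        (Finset.sum_le_sum_of_subset_of_nonneg (Finset.erase_subset o S) fun x _ _ => hf0 x) hη0
    · rw [Finset.sum_comm, hχ, Finset.sum_mul]
      refine Finset.sum_le_sum fun w _ => ?_
      rw [← Finset.mul_sum]
      exact mul_le_mul_of_nonneg_left
        ((gw_triangle_le G hp _ w (S.erase o) (fun y => G.neighborFinset y ∩ S)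
          fun y _ => Finset.inter_subset_left).trans (hη _ w)) (hf0 w)
  have h2 : g o ≤ χ * η := by
    refine le_trans (mul_le_mul_of_nonneg_left
      (Finset.sum_le_sum fun x _ => tau_le_gw G S hp hp1 o x) hp) ?_
    refine ((gw_loop_le G hp _ o Finset.inter_subset_left).trans (hη _ o)).trans ?_
    nlinarith
  have h3 : ∑ y ∈ S, g y = p * ∑ x ∈ S, f x * ((G.neighborFinset x ∩ S).card : ℝ) := by
    simp only [hg]
    rw [← Finset.mul_sum]
    refine congrArg (p * ·) ?_
    rw [Finset.sum_comm' (t' := S) (s' := fun x => G.neighborFinset x ∩ S)]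
    · exact Finset.sum_congr rfl fun x _ => by rw [Finset.sum_const, nsmul_eq_mul, mul_comm]
    · intro y x
      simp only [Finset.mem_inter, mem_neighborFinset, G.adj_comm y x]
      tauto
  have h4 : p * D * χ ≤ phi G S p o + ∑ y ∈ S, g y := by
    rw [h3, phi, ← mul_add, ← Finset.sum_add_distrib, mul_assoc, hχ, Finset.mul_sum]
    refine mul_le_mul_of_nonneg_left (Finset.sum_le_sum fun x _ => ?_) hp
    rw [← mul_add, ← Nat.cast_add, Finset.card_sdiff_add_card_inter, mul_comm]
    exact mul_le_mul_of_nonneg_left (Nat.cast_le.2 ((hD x).trans (le_of_eq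
      (G.card_neighborFinset_eq_degree x).symm))) (hf0 x)
  have h5 := Finset.add_sum_erase S g ho
  nlinarith [mul_le_mul_of_nonneg_right hc (le_trans zero_le_one hχ1)]

end

end Vale.Agent.P165
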