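import Vale.Agent.P165.Defs

/-!
Powers of graphs and nonamenability, for the P165 hand-in.
-/

namespace Vale.Agent.P165

/-- the `k`-th power: distinct vertices at distance at most `k` are adjacent -/
def powerGraph {V : Type*} (G : SimpleGraph V) (k : ℕ) : SimpleGraph V where
  Adj x y := x ≠ y ∧ ∃ q : G.Walk x y, q.length ≤ k
  symm := ⟨fun _ _ h => ⟨h.1.symm, h.2.elim fun q hq => ⟨q.reverse, q.length_reverse.le.trans hq⟩⟩⟩
  loopless := ⟨fun _ h => h.1 rfl⟩

/-- the `k`-th Cartesian power: change one coordinate along an edge -/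
def cartPower {V : Type*} (G : SimpleGraph V) (k : ℕ) : SimpleGraph (Fin k → V) where
  Adj x y := ∃ i, G.Adj (x i) (y i) ∧ ∀ j, j ≠ i → x j = y j
  symm := ⟨fun _ _ h => h.elim fun i hi => ⟨i, hi.1.symm, fun j hj => (hi.2 j hj).symm⟩⟩
  loopless := ⟨fun _ h => h.elim fun _ hi => hi.1.ne rfl⟩

/-- transitivity -/
def Transitive' {V : Type*} (G : SimpleGraph V) : Prop := ∀ u v, ∃ γ : G ≃g G, γ u = v

/-- positive vertex isoperimetric constant -/
def Nonamenable {V : Type*} (G : SimpleGraph V) : Prop :=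
  ∃ h : ℝ, 0 < h ∧ ∀ A : Finset V, A.Nonempty →
    h * A.card ≤ ({y | y ∉ A ∧ ∃ x ∈ A, G.Adj x y} : Set V).ncard

end Vale.Agent.P165
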