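import Vale.Agent.P165.Main
import Vale.Agent.P165.PowDefs

/-!
High powers of nonamenable transitive graphs have `p_c < p_u` (P165).
-/

namespace Vale.Agent.P165

noncomputable section

open Finset SimpleGraph

set_option linter.unusedSectionVars false

variable {V : Type*} [DecidableEq V] (G : SimpleGraph V) [G.LocallyFinite]

theorem bdry_ge_of_nonamenable {h : ℝ}
    (hb : ∀ A : Finset V, A.Nonempty →
      h * A.card ≤ ({y | y ∉ A ∧ ∃ x ∈ A, G.Adj x y} : Set V).ncard)
    (A : Finset V) (hA : A.Nonempty) : h * A.card ≤ edgeBdry G A := by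
  refine (hb A hA).trans (Nat.cast_le.2 ?_)
  have hsub : ({y | y ∉ A ∧ ∃ x ∈ A, G.Adj x y} : Set V) ⊆
      ((A.biUnion fun x => G.neighborFinset x \ A : Finset V) : Set V) := fun y hy => by
    obtain ⟨hyA, x, hx, hxy⟩ := hy
    exact Finset.mem_biUnion.2
      ⟨x, hx, Finset.mem_sdiff.2 ⟨(G.mem_neighborFinset x y).2 hxy, hyA⟩⟩
  refine (Set.ncard_le_ncard hsub (Finset.finite_toSet _)).trans ?_
  rw [Set.ncard_coe_finset]
  exact Finset.card_biUnion_le

theorem mem_ballF_iff {v y : V} : ∀ {k : ℕ}, y ∈ ballF G v k ↔ ∃ q : G.Walk v y, q.length ≤ k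
  | 0 => by
    constructor
    · intro h
      obtain rfl := Finset.mem_singleton.1 h
      exact ⟨Walk.nil, le_rfl⟩
    · rintro ⟨q, hq⟩
      exact Finset.mem_singleton.2 (Walk.eq_of_length_eq_zero (Nat.le_zero.1 hq)).symm
  | k + 1 => by
    constructor
    · intro h
      rcases Finset.mem_union.1 h with h | h
      · obtain ⟨q, hq⟩ := mem_ballF_iff.1 h
        exact ⟨q, hq.trans (Nat.le_succ k)⟩
      · obtain ⟨x, hx, hy⟩ := Finset.mem_biUnion.1 h
        obtain ⟨q, hq⟩ := mem_ballF_iff.1 hx
        exact ⟨q.concat ((G.mem_neighborFinset x y).1 hy), by simp; omega⟩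
    · rintro ⟨q, hq⟩
      exact ballF_mono G v hq (mem_ballF_of_walk G q)

theorem card_ballF_succ_le {D : ℕ} (hD : ∀ v, G.degree v = D) (v : V) (k : ℕ) :
    (ballF G v (k + 1)).card ≤ (D + 1) * (ballF G v k).card := by
  refine (Finset.card_union_le _ _).trans ?_
  refine (add_le_add le_rfl (Finset.card_biUnion_le.trans_eq
    (Finset.sum_congr rfl fun x _ => (G.card_neighborFinset_eq_degree x).trans (hD x)))).trans ?_
  rw [Finset.sum_const, smul_eq_mul]
  exact le_of_eq (by ring)

theorem lt_card_ballF [Infinite V] (hc : G.Connected) (v : V) :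
    ∀ k, k < (ballF G v k).card
  | 0 => by simp [ballF]
  | k + 1 => by
    have hk := lt_card_ballF hc v k
    suffices ¬ ballF G v (k + 1) ⊆ ballF G v k by
      have hlt : ballF G v k ⊂ ballF G v (k + 1) := ⟨subset_thick G _, this⟩
      have := Finset.card_lt_card hlt
      omega
    intro hsub
    have hclosed : ∀ (a b : V), G.Walk a b → a ∈ ballF G v k → b ∈ ballF G v k := by
      intro a b q
      induction q with
      | nil => exact id
      | @cons a b c hab r ih =>
        exact fun ha => ih (hsub (nb_subset_thick G ha ((G.mem_neighborFinset a b).2 hab)))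
    refine Set.infinite_univ (α := V) ((ballF G v k).finite_toSet.subset fun y _ => ?_)
    exact hclosed v y (hc v y).some (ballF_mono G v (Nat.zero_le k) (Finset.mem_singleton_self v))

theorem card_ballF_eq (htr : Transitive' G) (u v : V) (k : ℕ) :
    (ballF G u k).card = (ballF G v k).card := by
  suffices ∀ u v, (ballF G u k).card ≤ (ballF G v k).card from le_antisymm (this u v) (this v u)
  intro u v
  obtain ⟨γ, rfl⟩ := htr u v
  refine Finset.card_le_card_of_injOn γ (fun y hy => ?_) γ.injective.injOn
  obtain ⟨q, hq⟩ := (mem_ballF_iff G).1 hy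
  exact (mem_ballF_iff G).2 ⟨q.map γ.toHom, by rwa [Walk.length_map]⟩

/-- the neighbours in the power graph -/
instance powerLF (k : ℕ) : (powerGraph G k).LocallyFinite := fun v =>
  Fintype.ofFinset ((ballF G v k).erase v) fun y => by
    rw [Finset.mem_erase, mem_ballF_iff]
    exact ⟨fun h => ⟨h.1.symm, h.2⟩, fun h => ⟨h.1.symm, h.2⟩⟩

theorem power_nb (k : ℕ) (v : V) :
    (powerGraph G k).neighborFinset v = (ballF G v k).erase v := by
  ext y
  rw [mem_neighborFinset, Finset.mem_erase, mem_ballF_iff]
  exact ⟨fun h => ⟨h.1.symm, h.2⟩, fun h => ⟨h.1.symm, h.2⟩⟩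

theorem power_bdry {D : ℕ} (hD : ∀ v, G.degree v = D) {m : ℕ} {b : ℕ}
    (hb : ∀ x, (ballF G x m).card = b) (A : Finset V) :
    b * edgeBdry G A ≤ 2 * D * edgeBdry (powerGraph G (m + 1)) A := by
  classical
  set S := A.sigma fun x => (G.neighborFinset x \ A) ×ˢ ballF G x m with hS
  set P := A.sigma fun a => (powerGraph G (m + 1)).neighborFinset a \ A with hP
  have hScard : S.card = b * edgeBdry G A := by
    rw [hS, Finset.card_sigma, edgeBdry, Finset.mul_sum]
    exact Finset.sum_congr rfl fun x _ => by rw [Finset.card_product, hb, mul_comm]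
  have hPcard : P.card = edgeBdry (powerGraph G (m + 1)) A := by
    rw [hP, Finset.card_sigma, edgeBdry]
  set Φ : (Σ _ : V, V × V) → Σ _ : V, V := fun i =>
    if i.2.2 ∈ A then ⟨i.2.2, i.2.1⟩ else ⟨i.1, i.2.2⟩ with hΦ
  have hmaps : S.image Φ ⊆ P := by
    intro j hj
    obtain ⟨⟨x, x', z⟩, hi, rfl⟩ := Finset.mem_image.1 hj
    simp only [hS, Finset.mem_sigma, Finset.mem_product, Finset.mem_sdiff, mem_neighborFinset,
      mem_ballF_iff] at hi
    obtain ⟨hx, ⟨hxx', hx'⟩, q, hq⟩ := hi
    simp only [hΦ, hP]
    split_ifs with hz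
    · refine Finset.mem_sigma.2 ⟨hz, Finset.mem_sdiff.2 ⟨?_, hx'⟩⟩
      exact (mem_neighborFinset _ _ _).2
        ⟨fun e => hx' ((show z = x' from e) ▸ hz), q.reverse.concat hxx', by simp; omega⟩
    · refine Finset.mem_sigma.2 ⟨hx, Finset.mem_sdiff.2 ⟨?_, hz⟩⟩
      exact (mem_neighborFinset _ _ _).2 ⟨fun e => hz ((show x = z from e) ▸ hx), q, by omega⟩
  have hfib : ∀ j ∈ S.image Φ, (S.filter fun i => Φ i = j).card ≤ 2 * D := by
    intro j _
    have hsub : (S.filter fun i => Φ i = j) ⊆
        (G.neighborFinset j.1).image (fun x' => (⟨j.1, x', j.2⟩ : Σ _ : V, V × V)) ∪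
        (G.neighborFinset j.2).image (fun x => (⟨x, j.2, j.1⟩ : Σ _ : V, V × V)) := by
      rintro ⟨x, x', z⟩ hmem
      obtain ⟨hiS, he⟩ := Finset.mem_filter.1 hmem
      rw [hS, Finset.mem_sigma, Finset.mem_product, Finset.mem_sdiff, mem_neighborFinset] at hiS
      subst he
      by_cases hz : z ∈ A
      · rw [show Φ ⟨x, x', z⟩ = ⟨z, x'⟩ from if_pos hz]
        exact Finset.mem_union_right _ (Finset.mem_image.2
          ⟨x, (G.mem_neighborFinset _ _).2 hiS.2.1.1.symm, rfl⟩)
      · rw [show Φ ⟨x, x', z⟩ = ⟨x, z⟩ from if_neg hz]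
        exact Finset.mem_union_left _ (Finset.mem_image.2
          ⟨x', (G.mem_neighborFinset _ _).2 hiS.2.1.1, rfl⟩)
    refine (Finset.card_le_card hsub).trans ((Finset.card_union_le _ _).trans ?_)
    refine (add_le_add Finset.card_image_le Finset.card_image_le).trans (le_of_eq ?_)
    rw [G.card_neighborFinset_eq_degree, G.card_neighborFinset_eq_degree, hD, hD, two_mul]
  rw [← hScard, ← hPcard]
  exact (Finset.card_le_mul_card_image S (2 * D) hfib).trans
    (Nat.mul_le_mul_left _ (Finset.card_le_card hmaps))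

/-- the automorphisms act on powers -/
def powerIso (γ : G ≃g G) (k : ℕ) : powerGraph G k ≃g powerGraph G k :=
  { toEquiv := γ.toEquiv
    map_rel_iff' := fun {a b} => by
      constructor
      · rintro ⟨hne, q, hq⟩
        refine ⟨fun e => hne (congrArg γ e), ?_⟩
        exact ⟨((q.map γ.symm.toHom).copy (γ.symm_apply_apply a) (γ.symm_apply_apply b)),
          by rw [Walk.length_copy, Walk.length_map]; exact hq⟩
      · rintro ⟨hne, q, hq⟩
        exact ⟨fun e => hne (γ.injective e), q.map γ.toHom,
          by rw [Walk.length_map]; exact hq⟩ }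

end

/-- all high powers of a nonamenable transitive graph -/
theorem powers_nonunique.{u} (V : Type u) [Infinite V] (G : SimpleGraph V) [G.LocallyFinite]
    (hc : G.Connected) (htr : Transitive' G) (hna : Nonamenable G) :
    ∃ K : ℕ, ∀ k, K ≤ k → pc (powerGraph G k) < pu (powerGraph G k) := by
  classical
  obtain ⟨h, hpos, hb⟩ := hna
  obtain ⟨o⟩ := hc.nonempty
  set D := G.degree o with hDdef
  have hD : ∀ v, G.degree v = D := fun v => by
    obtain ⟨γ, rfl⟩ := htr o v
    exact SimpleGraph.Iso.degree_eq γ o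
  have hD0 : (0 : ℝ) < D := by
    have h1 := bdry_ge_of_nonamenable G hb {o} (Finset.singleton_nonempty o)
    have h2 : edgeBdry G {o} ≤ D := by
      rw [edgeBdry, Finset.sum_singleton]
      exact (Finset.card_le_card Finset.sdiff_subset).trans (G.card_neighborFinset_eq_degree o).le
    have : (edgeBdry G {o} : ℝ) ≤ D := by exact_mod_cast h2
    simp at h1
    linarith
  set δ := h / (2 * D * (D + 1)) with hδ
  have hδ0 : 0 < δ := by positivity
  obtain ⟨D₀, lam, hlam, hdeg⟩ := exists_degree.{u} hδ0
  refine ⟨D₀ + 1, fun k hk => ?_⟩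
  obtain ⟨m, rfl⟩ : ∃ m, k = m + 1 := ⟨k - 1, by omega⟩
  set c := ((ballF G o (m + 1)).erase o).card with hc'
  have hcard : ∀ v, (powerGraph G (m + 1)).degree v = c := fun v => by
    rw [← SimpleGraph.card_neighborFinset_eq_degree, power_nb, hc', Finset.card_erase_of_mem,
      Finset.card_erase_of_mem, card_ballF_eq G htr v o]
    · exact ballF_mono G o (Nat.zero_le _) (Finset.mem_singleton_self o)
    · exact ballF_mono G v (Nat.zero_le _) (Finset.mem_singleton_self v)
  have hcle : c ≤ (D + 1) * (ballF G o m).card :=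
    (Finset.card_le_card (Finset.erase_subset _ _)).trans (card_ballF_succ_le G hD o m)
  have hcge : D₀ ≤ c := by
    rw [hc', Finset.card_erase_of_mem (ballF_mono G o (Nat.zero_le _) (Finset.mem_singleton_self o))]
    have := lt_card_ballF G hc o (m + 1)
    omega
  have hle : G ≤ powerGraph G (m + 1) := fun x y hxy => ⟨hxy.ne, hxy.toWalk, by simp⟩
  have hqt : QuasiTransitive (powerGraph G (m + 1)) := ⟨{o}, fun v => by
    obtain ⟨γ, hγ⟩ := htr o v
    exact ⟨o, Finset.mem_singleton_self o, powerIso G γ (m + 1), hγ⟩⟩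
  refine pc_lt_pu_of_eta _ (hc.mono hle) hqt hcard hlam (hdeg V _ c hcge hcard fun A hA => ?_)
  have h1 := bdry_ge_of_nonamenable G hb A hA
  have h2 : (((ballF G o m).card : ℝ)) * edgeBdry G A ≤
      2 * D * edgeBdry (powerGraph G (m + 1)) A := by
    exact_mod_cast power_bdry G hD (fun x => card_ballF_eq G htr x o m) A
  have h3 : (c : ℝ) ≤ (D + 1) * (ballF G o m).card := by exact_mod_cast hcle
  rw [hδ, div_mul_eq_mul_div, div_mul_eq_mul_div, div_le_iff₀ (by positivity)]
  calc h * c * A.card ≤ h * ((D + 1) * (ballF G o m).card) * A.card := by gcongr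
    _ = (D + 1) * ((ballF G o m).card * (h * A.card)) := by ring
    _ ≤ (D + 1) * ((ballF G o m).card * edgeBdry G A) := by gcongr
    _ ≤ (D + 1) * (2 * D * edgeBdry (powerGraph G (m + 1)) A) := by gcongr
    _ = _ := by ring

noncomputable section

open Finset SimpleGraph

set_option linter.unusedSectionVars false

variable {V : Type*} [DecidableEq V] (G : SimpleGraph V) [G.LocallyFinite]

/-- the neighbours in a Cartesian power, as a finite set -/
def cartNb (k : ℕ) (x : Fin k → V) : Finset (Fin k → V) :=
  Finset.univ.biUnion fun i => (G.neighborFinset (x i)).image fun y => Function.update x i y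

theorem mem_cartNb {k : ℕ} {x y : Fin k → V} : y ∈ cartNb G k x ↔ (cartPower G k).Adj x y := by
  simp only [cartNb, Finset.mem_biUnion, Finset.mem_univ, true_and, Finset.mem_image,
    mem_neighborFinset]
  constructor
  · rintro ⟨i, z, hz, rfl⟩
    exact ⟨i, by simpa using hz, fun j hj => by simp [hj]⟩
  · rintro ⟨i, hi, hj⟩
    refine ⟨i, y i, hi, funext fun j => ?_⟩
    rcases eq_or_ne j i with rfl | h
    · simp
    · simp [h, hj j h]

instance cartLF (k : ℕ) : (cartPower G k).LocallyFinite := fun x =>
  Fintype.ofFinset (cartNb G k x) fun y => by rw [mem_cartNb]; rfl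

theorem cart_nb (k : ℕ) (x : Fin k → V) : (cartPower G k).neighborFinset x = cartNb G k x := by
  ext y
  rw [mem_neighborFinset, mem_cartNb]

theorem cartNb_disjoint {k : ℕ} (x : Fin k → V) :
    ((Finset.univ : Finset (Fin k)) : Set (Fin k)).PairwiseDisjoint fun i =>
      (G.neighborFinset (x i)).image fun y => Function.update x i y := by
  intro i _ j _ hij
  simp only [Function.onFun, Finset.disjoint_left, Finset.mem_image, mem_neighborFinset]
  rintro _ ⟨y, hy, rfl⟩ ⟨z, -, he⟩
  have := congrFun he i
  simp [hij] at this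
  exact hy.ne this

theorem update_inj {k : ℕ} (x : Fin k → V) (i : Fin k) :
    Function.Injective fun y => Function.update x i y := fun a b h => by
  simpa using congrFun h i

theorem cart_degree {D : ℕ} (hD : ∀ v, G.degree v = D) (k : ℕ) (x : Fin k → V) :
    (cartPower G k).degree x = k * D := by
  rw [← card_neighborFinset_eq_degree, cart_nb, cartNb, Finset.card_biUnion (cartNb_disjoint G x)]
  simp [Finset.card_image_of_injective _ (update_inj x _), hD]

theorem cart_bdry (o : V) {h : ℝ}
    (hb : ∀ A : Finset V, A.Nonempty → h * A.card ≤ edgeBdry G A) (k : ℕ)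
    (A : Finset (Fin k → V)) : h * k * A.card ≤ edgeBdry (cartPower G k) A := by
  classical
  have e : edgeBdry (cartPower G k) A = ∑ i : Fin k, ∑ x ∈ A,
      ((G.neighborFinset (x i)).filter fun y => Function.update x i y ∉ A).card := by
    rw [edgeBdry, Finset.sum_comm]
    refine Finset.sum_congr rfl fun x _ => ?_
    rw [cart_nb, Finset.sdiff_eq_filter, cartNb, Finset.filter_biUnion, Finset.card_biUnion]
    · exact Finset.sum_congr rfl fun i _ => by
        rw [Finset.filter_image, Finset.card_image_of_injective _ (update_inj x i)]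
    · exact fun i hi j hj hij => (cartNb_disjoint G x hi hj hij).mono
        (Finset.filter_subset _ _) (Finset.filter_subset _ _)
  rw [e, Nat.cast_sum]
  refine le_trans (le_of_eq (show h * k * A.card = ∑ _i : Fin k, h * A.card by simp; ring))
    (Finset.sum_le_sum fun i _ => ?_)
  set π : (Fin k → V) → (Fin k → V) := fun x => Function.update x i o with hπ
  rw [Finset.card_eq_sum_card_image π A, ← Finset.sum_fiberwise_of_maps_to (g := π)
    (t := A.image π) (fun x hx => Finset.mem_image_of_mem π hx), Nat.cast_sum, Nat.cast_sum,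
    Finset.mul_sum]
  refine Finset.sum_le_sum fun r hr => ?_
  set F := A.filter fun x => π x = r with hF
  have hrec : ∀ x ∈ F, ∀ v, Function.update r i v = Function.update x i v := fun x hx v => by
    rw [← (Finset.mem_filter.1 hx).2, hπ]
    exact Function.update_idem o v x
  have hinj : Set.InjOn (fun x : Fin k → V => x i) (F : Set (Fin k → V)) := by
    intro a ha b hb' hab
    rw [← Function.update_eq_self i a, ← Function.update_eq_self i b,
      ← hrec a ha, ← hrec b hb']
    exact congrArg (Function.update r i) hab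
  have hne : (F.image fun x => x i).Nonempty := by
    obtain ⟨x, hx, hxr⟩ := Finset.mem_image.1 hr
    exact ⟨x i, Finset.mem_image.2 ⟨x, Finset.mem_filter.2 ⟨hx, hxr⟩, rfl⟩⟩
  have := hb _ hne
  rw [Finset.card_image_of_injOn hinj, edgeBdry, Finset.sum_image hinj] at this
  refine this.trans (Nat.cast_le.2 (Finset.sum_le_sum fun x hx => Finset.card_le_card ?_))
  intro y hy
  obtain ⟨hy1, hy2⟩ := Finset.mem_sdiff.1 hy
  refine Finset.mem_filter.2 ⟨hy1, fun hmem => hy2 (Finset.mem_image.2
    ⟨Function.update x i y, Finset.mem_filter.2 ⟨hmem, ?_⟩, by simp⟩)⟩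
  rw [← (Finset.mem_filter.1 hx).2, hπ]
  exact Function.update_idem y o x

theorem cart_connected (hc : G.Connected) (k : ℕ) : (cartPower G k).Connected := by
  classical
  obtain ⟨o⟩ := hc.nonempty
  have hstep : ∀ (x : Fin k → V) (i : Fin k) (v : V),
      (cartPower G k).Reachable x (Function.update x i v) := by
    intro x i v
    let f : G →g cartPower G k :=
      { toFun := fun y => Function.update x i y
        map_rel' := fun {a b} hab => ⟨i, by simpa using hab, fun j hj => by simp [hj]⟩ }
    have h := Reachable.map f (hc (x i) v)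
    rwa [show f (x i) = x from Function.update_eq_self i x] at h
  refine { preconnected := fun x y => ?_, nonempty := ⟨fun _ => o⟩ }
  suffices ∀ s : Finset (Fin k), (cartPower G k).Reachable x fun j => if j ∈ s then y j else x j by
    simpa using this Finset.univ
  intro s
  induction s using Finset.induction_on with
  | empty => simp
  | @insert a s ha ih =>
    refine ih.trans ?_
    convert hstep (fun j => if j ∈ s then y j else x j) a (y a) using 1
    funext j
    rcases eq_or_ne j a with rfl | h
    · simp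
    · simp [h]

/-- the automorphisms act coordinatewise -/
def cartIso {k : ℕ} (γ : Fin k → G ≃g G) : cartPower G k ≃g cartPower G k :=
  { toEquiv := Equiv.piCongrRight fun i => (γ i).toEquiv
    map_rel_iff' := fun {a b} => by
      show (∃ i, G.Adj (γ i (a i)) (γ i (b i)) ∧ ∀ j, j ≠ i → γ j (a j) = γ j (b j)) ↔ _
      exact exists_congr fun i => and_congr (γ i).map_adj_iff
        (forall₂_congr fun j _ => (γ j).injective.eq_iff) }

theorem cart_quasiTransitive (hqt : QuasiTransitive G) (k : ℕ) :
    QuasiTransitive (cartPower G k) := by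
  classical
  obtain ⟨F, hF⟩ := hqt
  refine ⟨Fintype.piFinset fun _ : Fin k => F, fun v => ?_⟩
  choose u hu γ hγ using fun i => hF (v i)
  exact ⟨u, Fintype.mem_piFinset.2 hu, cartIso G γ, funext hγ⟩

end

/-- all high Cartesian powers of a nonamenable regular quasi-transitive graph -/
theorem cart_nonunique.{u} (V : Type u) [Infinite V] (G : SimpleGraph V) [G.LocallyFinite]
    (D : ℕ) (hD : ∀ v, G.degree v = D) (hc : G.Connected) (hqt : QuasiTransitive G)
    (hna : Nonamenable G) :
    ∃ K : ℕ, ∀ k, K ≤ k → pc (cartPower G k) < pu (cartPower G k) := by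
  classical
  obtain ⟨h, hpos, hb⟩ := hna
  obtain ⟨o⟩ := hc.nonempty
  have hD0 : (0 : ℝ) < D := by
    have h1 := bdry_ge_of_nonamenable G hb {o} (Finset.singleton_nonempty o)
    have h2 : edgeBdry G {o} ≤ D := by
      rw [edgeBdry, Finset.sum_singleton]
      exact ((Finset.card_le_card Finset.sdiff_subset).trans
        (G.card_neighborFinset_eq_degree o).le).trans (hD o).le
    have : (edgeBdry G {o} : ℝ) ≤ D := by exact_mod_cast h2
    simp at h1
    linarith
  obtain ⟨D₀, lam, hlam, hdeg⟩ := exists_degree.{u} (δ := h / D) (div_pos hpos hD0)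
  refine ⟨D₀ + 1, fun k hk => ?_⟩
  have : Infinite (Fin k → V) := by
    have : Nonempty (Fin k) := ⟨⟨0, by omega⟩⟩
    exact Pi.infinite_of_right
  refine pc_lt_pu_of_eta (cartPower G k) (cart_connected G hc k) (cart_quasiTransitive G hqt k)
    (cart_degree G hD k) hlam
    (hdeg (Fin k → V) _ (k * D) ?_ (cart_degree G hD k) fun A _ => ?_)
  · have : 1 ≤ D := by exact_mod_cast hD0
    calc D₀ ≤ k * 1 := by omega
      _ ≤ k * D := Nat.mul_le_mul_left k this
  · refine le_trans (le_of_eq ?_) (cart_bdry G o (bdry_ge_of_nonamenable G hb) k A)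
    push_cast
    field_simp

end Vale.Agent.P165
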