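import Mathlib

/-!
Finite product Bernoulli weights: the elementary calculus used for percolation (P165).
-/

namespace Vale.Agent.P165

noncomputable section

set_option linter.unusedSectionVars false

open Classical in
/-- indicator of a proposition -/
def ind (P : Prop) : ℝ := if P then 1 else 0

theorem ind_true {P : Prop} (h : P) : ind P = 1 := by simp [ind, h]
theorem ind_false {P : Prop} (h : ¬ P) : ind P = 0 := by simp [ind, h]

theorem ind_nonneg (P : Prop) : 0 ≤ ind P := by
  by_cases h : P <;> simp [ind, h]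

theorem ind_le_one (P : Prop) : ind P ≤ 1 := by
  by_cases h : P <;> simp [ind, h]

theorem ind_le {P Q : Prop} (h : P → Q) : ind P ≤ ind Q := by
  by_cases hP : P
  · rw [ind_true hP, ind_true (h hP)]
  · rw [ind_false hP]; exact ind_nonneg Q

theorem ind_congr {P Q : Prop} (h : P ↔ Q) : ind P = ind Q := by rw [propext h]

theorem ind_and (P Q : Prop) : ind (P ∧ Q) = ind P * ind Q := by
  by_cases hP : P <;> by_cases hQ : Q <;> simp [ind, hP, hQ]

theorem ind_and_not {P Q : Prop} (h : Q → P) : ind (P ∧ ¬ Q) = ind P - ind Q := by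
  by_cases hP : P <;> by_cases hQ : Q
  · simp [ind, hP, hQ]
  · simp [ind, hP, hQ]
  · exact absurd (h hQ) hP
  · simp [ind, hP, hQ]

variable {α : Type*} [DecidableEq α]

/-- weight of the open set `A` inside the finite edge set `E` -/
def wt (E : Finset α) (p : ℝ) (A : Finset α) : ℝ := p ^ A.card * (1 - p) ^ (E.card - A.card)

/-- probability of `Q` -/
def pr (E : Finset α) (p : ℝ) (Q : Finset α → Prop) : ℝ :=
  ∑ A ∈ E.powerset, wt E p A * ind (Q A)

theorem wt_nonneg (E : Finset α) {p : ℝ} (hp : 0 ≤ p) (hp1 : p ≤ 1) (A : Finset α) :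
    0 ≤ wt E p A := by
  unfold wt
  have : (0 : ℝ) ≤ 1 - p := by linarith
  positivity

theorem pr_nonneg (E : Finset α) {p : ℝ} (hp : 0 ≤ p) (hp1 : p ≤ 1) (Q : Finset α → Prop) :
    0 ≤ pr E p Q :=
  Finset.sum_nonneg fun A _ => mul_nonneg (wt_nonneg E hp hp1 A) (ind_nonneg _)

theorem pr_top (E : Finset α) (p : ℝ) : pr E p (fun _ => True) = 1 := by
  simp only [pr, wt, ind_true trivial, mul_one]
  rw [Finset.sum_pow_mul_eq_add_pow]
  simp

theorem pr_congr {E : Finset α} {p : ℝ} {Q R : Finset α → Prop}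
    (h : ∀ A, A ⊆ E → (Q A ↔ R A)) : pr E p Q = pr E p R :=
  Finset.sum_congr rfl fun A hA => by rw [ind_congr (h A (Finset.mem_powerset.1 hA))]

theorem pr_mono {E : Finset α} {p : ℝ} (hp : 0 ≤ p) (hp1 : p ≤ 1) {Q R : Finset α → Prop}
    (h : ∀ A, A ⊆ E → Q A → R A) : pr E p Q ≤ pr E p R :=
  Finset.sum_le_sum fun A hA =>
    mul_le_mul_of_nonneg_left (ind_le (h A (Finset.mem_powerset.1 hA))) (wt_nonneg E hp hp1 A)

theorem pr_le_one {E : Finset α} {p : ℝ} (hp : 0 ≤ p) (hp1 : p ≤ 1) (Q : Finset α → Prop) :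
    pr E p Q ≤ 1 := by
  rw [← pr_top E p]
  exact pr_mono hp hp1 fun _ _ _ => trivial

theorem pr_false (E : Finset α) (p : ℝ) {Q : Finset α → Prop} (h : ∀ A, A ⊆ E → ¬ Q A) :
    pr E p Q = 0 :=
  Finset.sum_eq_zero fun A hA => by rw [ind_false (h A (Finset.mem_powerset.1 hA)), mul_zero]

theorem pr_compl (E : Finset α) (p : ℝ) (Q : Finset α → Prop) :
    pr E p (fun A => ¬ Q A) = 1 - pr E p Q := by
  rw [eq_sub_iff_add_eq, ← pr_top E p, pr, pr, pr, ← Finset.sum_add_distrib]
  refine Finset.sum_congr rfl fun A _ => ?_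
  rw [← mul_add]
  by_cases h : Q A <;> simp [ind, h]

theorem pr_and_not {E : Finset α} {p : ℝ} {P Q : Finset α → Prop}
    (h : ∀ A, A ⊆ E → Q A → P A) :
    pr E p (fun A => P A ∧ ¬ Q A) = pr E p P - pr E p Q := by
  rw [pr, pr, pr, ← Finset.sum_sub_distrib]
  refine Finset.sum_congr rfl fun A hA => ?_
  rw [ind_and_not (h A (Finset.mem_powerset.1 hA)), mul_sub]

theorem pr_sum_le {E : Finset α} {p : ℝ} (hp : 0 ≤ p) (hp1 : p ≤ 1) {ι : Type*} (s : Finset ι)
    (R : ι → Finset α → Prop) {Q : Finset α → Prop}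
    (h : ∀ A, A ⊆ E → Q A → ∃ i ∈ s, R i A) : pr E p Q ≤ ∑ i ∈ s, pr E p (R i) := by
  simp only [pr]
  rw [Finset.sum_comm]
  refine Finset.sum_le_sum fun A hA => ?_
  rw [← Finset.mul_sum]
  refine mul_le_mul_of_nonneg_left ?_ (wt_nonneg E hp hp1 A)
  by_cases hQ : Q A
  · obtain ⟨i, hi, hR⟩ := h A (Finset.mem_powerset.1 hA) hQ
    calc ind (Q A) ≤ ind (R i A) := ind_le fun _ => hR
      _ ≤ _ := Finset.single_le_sum (fun j _ => ind_nonneg (R j A)) hi
  · rw [ind_false hQ]
    exact Finset.sum_nonneg fun j _ => ind_nonneg _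

/-- removing one edge -/
theorem pr_insert {E : Finset α} {e : α} (he : e ∉ E) (p : ℝ) (Q : Finset α → Prop) :
    pr (insert e E) p Q = (1 - p) * pr E p Q + p * pr E p (fun A => Q (insert e A)) := by
  rw [pr, Finset.sum_powerset_insert he, pr, pr, Finset.mul_sum, Finset.mul_sum]
  refine congrArg₂ (· + ·) (Finset.sum_congr rfl fun A hA => ?_)
    (Finset.sum_congr rfl fun A hA => ?_)
  · have := Finset.card_le_card (Finset.mem_powerset.1 hA)
    rw [wt, wt, Finset.card_insert_of_notMem he,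
      show E.card + 1 - A.card = (E.card - A.card) + 1 by omega, pow_succ]
    ring
  · have hA' := Finset.mem_powerset.1 hA
    rw [wt, wt, Finset.card_insert_of_notMem he,
      Finset.card_insert_of_notMem (fun h => he (hA' h)), Nat.add_sub_add_right, pow_succ]
    ring

theorem pr_erase {E : Finset α} {e : α} (he : e ∈ E) (p : ℝ) (Q : Finset α → Prop) :
    pr E p Q = (1 - p) * pr (E.erase e) p Q + p * pr (E.erase e) p (fun A => Q (insert e A)) := by
  conv_lhs => rw [← Finset.insert_erase he]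
  exact pr_insert (Finset.notMem_erase e E) p Q

theorem pr_closed {E : Finset α} {e : α} (he : e ∈ E) (p : ℝ) (R : Finset α → Prop) :
    (1 - p) * pr (E.erase e) p R = pr E p (fun A => e ∉ A ∧ R A) := by
  rw [pr_erase he p (fun A => e ∉ A ∧ R A),
    pr_false (E.erase e) p (Q := fun A => e ∉ insert e A ∧ R (insert e A))
      (fun A _ h => h.1 (Finset.mem_insert_self e A)), mul_zero, add_zero]
  refine congrArg ((1 - p) * ·) (pr_congr fun A hA => ⟨fun h => ⟨fun h' => ?_, h⟩, fun h => h.2⟩)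
  exact Finset.notMem_erase e E (hA h')

/-- splitting along a disjoint union -/
theorem pr_split {E₁ E₂ : Finset α} (h : Disjoint E₁ E₂) (p : ℝ) (Q : Finset α → Prop) :
    pr (E₁ ∪ E₂) p Q = ∑ B ∈ E₂.powerset, wt E₂ p B * pr E₁ p (fun A => Q (A ∪ B)) := by
  induction E₂ using Finset.induction_on generalizing Q with
  | empty => simp [wt]
  | @insert e E₂ he ih =>
    rw [Finset.disjoint_insert_right] at h
    rw [Finset.union_insert, pr_insert (by simp [he, h.1]) p Q, ih h.2, ih h.2, Finset.mul_sum,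
      Finset.mul_sum, Finset.sum_powerset_insert he]
    refine congrArg₂ (· + ·) (Finset.sum_congr rfl fun A hA => ?_)
      (Finset.sum_congr rfl fun A hA => ?_)
    · have := Finset.card_le_card (Finset.mem_powerset.1 hA)
      rw [wt, wt, Finset.card_insert_of_notMem he,
        show E₂.card + 1 - A.card = (E₂.card - A.card) + 1 by omega, pow_succ]
      ring
    · have hA' := Finset.mem_powerset.1 hA
      rw [wt, wt, Finset.card_insert_of_notMem he,
        Finset.card_insert_of_notMem (fun h => he (hA' h)), Nat.add_sub_add_right, pow_succ]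
      simp only [Finset.union_insert]
      ring

/-- independence -/
theorem pr_mul {E₁ E₂ : Finset α} (h : Disjoint E₁ E₂) (p : ℝ) {Q Q₁ Q₂ : Finset α → Prop}
    (hQ : ∀ A B, A ⊆ E₁ → B ⊆ E₂ → (Q (A ∪ B) ↔ Q₁ A ∧ Q₂ B)) :
    pr (E₁ ∪ E₂) p Q = pr E₁ p Q₁ * pr E₂ p Q₂ := by
  have hB : ∀ B ∈ E₂.powerset, pr E₁ p (fun A => Q (A ∪ B)) = pr E₁ p Q₁ * ind (Q₂ B) := by
    intro B hB
    rw [pr_congr (R := fun A => Q₁ A ∧ Q₂ B) fun A hA => hQ A B hA (Finset.mem_powerset.1 hB),
      pr, pr, Finset.sum_mul]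
    exact Finset.sum_congr rfl fun A _ => by rw [ind_and, mul_assoc]
  show _ = pr E₁ p Q₁ * ∑ B ∈ E₂.powerset, wt E₂ p B * ind (Q₂ B)
  rw [pr_split h p Q, Finset.mul_sum]
  exact Finset.sum_congr rfl fun B hB' => by rw [hB B hB', mul_left_comm]

/-- marginals -/
theorem pr_marginal {E E₁ : Finset α} (h : E₁ ⊆ E) (p : ℝ) (Q : Finset α → Prop) :
    pr E p (fun A => Q (A ∩ E₁)) = pr E₁ p Q := by
  conv_lhs => rw [← Finset.union_sdiff_of_subset h]
  rw [pr_mul (Q₁ := Q) (Q₂ := fun _ => True) Finset.disjoint_sdiff p fun A B hA hB => ?_,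
    pr_top, mul_one]
  rw [Finset.union_inter_distrib_right, Finset.inter_eq_left.2 hA,
    Finset.disjoint_iff_inter_eq_empty.1 (Finset.sdiff_disjoint.mono_left hB), Finset.union_empty]
  simp

theorem pr_all_open (T : Finset α) (p : ℝ) : pr T p (fun B => T ⊆ B) = p ^ T.card := by
  rw [pr, Finset.sum_eq_single_of_mem T (Finset.mem_powerset.2 subset_rfl)]
  · simp [wt, ind]
  · intro B hB hne
    rw [ind_false fun h => hne (Finset.Subset.antisymm (Finset.mem_powerset.1 hB) h), mul_zero]

/-- prescribed open edges, and an event of the other edges -/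
theorem pr_open_and {E T : Finset α} (hT : T ⊆ E) (p : ℝ) (Q : Finset α → Prop) :
    pr E p (fun A => T ⊆ A ∧ Q (A \ T)) = p ^ T.card * pr (E \ T) p Q := by
  have e : E \ T ∪ T = E := Finset.sdiff_union_of_subset hT
  conv_lhs => rw [← e]
  rw [pr_mul (Q₁ := Q) (Q₂ := fun B => T ⊆ B) Finset.sdiff_disjoint p fun A B hA hB => ?_,
    pr_all_open, mul_comm]
  have hd : Disjoint A T := Finset.sdiff_disjoint.mono_left hA
  constructor
  · rintro ⟨h1, h2⟩
    refine ⟨?_, fun x hx => (Finset.mem_union.1 (h1 hx)).resolve_left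
      fun ha => Finset.disjoint_left.1 hd ha hx⟩
    rwa [Finset.union_sdiff_distrib, sdiff_eq_self_iff_disjoint.2 hd.symm,
      Finset.sdiff_eq_empty_iff_subset.2 hB, Finset.union_empty] at h2
  · rintro ⟨h1, h2⟩
    refine ⟨h2.trans Finset.subset_union_right, ?_⟩
    rwa [Finset.union_sdiff_distrib, sdiff_eq_self_iff_disjoint.2 hd.symm,
      Finset.sdiff_eq_empty_iff_subset.2 hB, Finset.union_empty]

theorem pr_subset_le {E E₁ : Finset α} (h : E₁ ⊆ E) {p : ℝ} (hp : 0 ≤ p) (hp1 : p ≤ 1)
    {Q : Finset α → Prop} (hQ : ∀ A B, A ⊆ B → Q A → Q B) : pr E₁ p Q ≤ pr E p Q := by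
  rw [← pr_marginal h p Q]
  exact pr_mono hp hp1 fun A _ hA => hQ _ _ Finset.inter_subset_left hA

/-- the derivative in the parameter -/
theorem hasDerivAt_pr (E : Finset α) (Q : Finset α → Prop) (p : ℝ) :
    HasDerivAt (fun q => pr E q Q)
      (∑ e ∈ E, (pr (E.erase e) p (fun A => Q (insert e A)) - pr (E.erase e) p Q)) p := by
  induction E using Finset.induction_on generalizing Q with
  | empty =>
    have h : ∀ q : ℝ, pr (∅ : Finset α) q Q = ind (Q ∅) := fun q => by simp [pr, wt]
    simp only [h, Finset.sum_empty]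
    exact hasDerivAt_const p _
  | @insert e E he ih =>
    have hf : (fun q => pr (insert e E) q Q) =
        fun q => (1 - q) * pr E q Q + q * pr E q (fun A => Q (insert e A)) :=
      funext fun q => pr_insert he q Q
    rw [hf]
    have h1 := (((hasDerivAt_id p).const_sub 1).mul (ih Q)).add
      ((hasDerivAt_id p).mul (ih fun A => Q (insert e A)))
    refine HasDerivAt.congr_deriv h1 ?_
    have hsum : ∀ i ∈ E,
        pr ((insert e E).erase i) p (fun A => Q (insert i A)) -
            pr ((insert e E).erase i) p Q =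
          (1 - p) * (pr (E.erase i) p (fun A => Q (insert i A)) - pr (E.erase i) p Q) +
          p * (pr (E.erase i) p (fun A => Q (insert e (insert i A))) -
            pr (E.erase i) p (fun A => Q (insert e A))) := by
      intro i hi
      have hne : e ≠ i := fun h => he (h ▸ hi)
      rw [Finset.erase_insert_of_ne hne,
        pr_insert (fun h => he (Finset.mem_of_mem_erase h)),
        pr_insert (fun h => he (Finset.mem_of_mem_erase h))]
      simp only [Finset.insert_comm i e]
      ring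
    rw [Finset.sum_insert he, Finset.erase_insert he, Finset.sum_congr rfl hsum,
      Finset.sum_add_distrib, ← Finset.mul_sum, ← Finset.mul_sum]
    simp only [id_eq]
    ring

end

end Vale.Agent.P165
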